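import Crest.Agent.Pre.Tree

/-!
# Budgets: along a search path the blocks cost `O(d)`
-/

set_option autoImplicit false

open Finset

namespace Crest.Agent.Pre

/-- Geometric part of the potential. -/
noncomputable def Geo (n j : ℕ) : ℝ :=
  2 * (((5 - j % 4) % 4 : ℕ) : ℝ) * (3 / 4) ^ n + 32 * (1 - (3 / 4) ^ n)

/-- Potential before the first left cut. -/
noncomputable def PP (j : ℕ) : ℝ := (((4 - j % 4) % 4 : ℕ) : ℝ) + 57

/-- Potential of the old mass. -/
noncomputable def GP (m i : ℕ) (G : ℝ) : ℝ :=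
  2 * (3 / 2) ^ m * G + (i + 1) * (8 / 27) ^ m + 56 * (3 / 4) ^ (m + 1)

lemma q_le (n : ℕ) : ((3 : ℝ) / 4) ^ n ≤ 1 := pow_le_one₀ (by norm_num) (by norm_num)

lemma Geo_nonneg (n j : ℕ) : 0 ≤ Geo n j := by
  unfold Geo
  have := q_le n
  have : (0 : ℝ) ≤ 2 * (((5 - j % 4) % 4 : ℕ) : ℝ) * (3 / 4) ^ n := by positivity
  linarith

lemma Geo_le (n j : ℕ) : Geo n j ≤ 32 := by
  unfold Geo
  have h : (((5 - j % 4) % 4 : ℕ) : ℝ) ≤ 3 := by exact_mod_cast (by omega : (5 - j % 4) % 4 ≤ 3)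
  have : (0 : ℝ) ≤ (3 / 4) ^ n := by positivity
  nlinarith

lemma Geo_step (n j : ℕ) (hj : j % 4 ≠ 1) : Geo n (j + 1) + 2 * (3 / 4) ^ n = Geo n j := by
  unfold Geo
  have : (5 - j % 4) % 4 = (5 - (j + 1) % 4) % 4 + 1 := by omega
  rw [this]; push_cast; ring

lemma Geo_stepR (n j : ℕ) (hj : j % 4 = 1) :
    Geo n (j + 1) + 2 * (3 / 4) ^ n = Geo (n + 1) j := by
  unfold Geo
  have h1 : (5 - j % 4) % 4 = 0 := by omega
  have h2 : (5 - (j + 1) % 4) % 4 = 3 := by omega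
  rw [h1, h2]; push_cast; ring

lemma PP_ge (j : ℕ) : 57 ≤ PP j := by
  unfold PP
  have : (0 : ℝ) ≤ (((4 - j % 4) % 4 : ℕ) : ℝ) := by positivity
  linarith

lemma PP_le (j : ℕ) : PP j ≤ 60 := by
  unfold PP
  have h : (((4 - j % 4) % 4 : ℕ) : ℝ) ≤ 3 := by exact_mod_cast (by omega : (4 - j % 4) % 4 ≤ 3)
  linarith

lemma PP_step (j : ℕ) (hj : j % 4 ≠ 0) : PP (j + 1) + 1 = PP j := by
  unfold PP
  have : (4 - j % 4) % 4 = (4 - (j + 1) % 4) % 4 + 1 := by omega
  rw [this]; push_cast; ring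

lemma GP_nonneg (m i : ℕ) {G : ℝ} (hG : 0 ≤ G) : 0 ≤ GP m i G := by
  unfold GP; positivity

lemma GP_le (m i : ℕ) {G : ℝ} (hG : G ≤ (1 / 2) ^ m) (hi : i + 1 ≤ 12 * 2 ^ m) :
    GP m i G ≤ 56 * (3 / 4) ^ m := by
  unfold GP
  have hi4 : ((i : ℝ) + 1) ≤ 12 * 2 ^ m := by exact_mod_cast hi
  have h1 : (3 / 2 : ℝ) ^ m * G ≤ (3 / 4) ^ m := by
    calc (3 / 2 : ℝ) ^ m * G ≤ (3 / 2) ^ m * (1 / 2) ^ m := by gcongr
      _ = (3 / 4) ^ m := by rw [← mul_pow]; norm_num
  have h2 : ((i : ℝ) + 1) * (8 / 27) ^ m ≤ 12 * (3 / 4) ^ m := by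
    calc ((i : ℝ) + 1) * (8 / 27) ^ m ≤ (12 * 2 ^ m) * (8 / 27) ^ m := by gcongr
      _ = 12 * (16 / 27) ^ m := by rw [mul_assoc, ← mul_pow]; norm_num
      _ ≤ 12 * (3 / 4) ^ m := by
        have := pow_le_pow_left₀ (show (0 : ℝ) ≤ 16 / 27 by norm_num)
          (show (16 / 27 : ℝ) ≤ 3 / 4 by norm_num) m
        linarith
  rw [pow_succ]; linarith

lemma block_pay {Y h g : ℝ} (n m : ℕ) (hh : 0 ≤ h) (hg : 0 ≤ g)
    (H : ∀ l : ℝ, 1 ≤ l → Y ≤ l * h + 1 / l ^ 3) (h2 : 1 ≤ n → h ≤ 2 * g + (1 / 2) ^ n) :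
    Y ≤ h + 2 * (3 / 4) ^ n + 2 * (3 / 2) ^ m * g + (8 / 27) ^ m := by
  have p1 : (0 : ℝ) ≤ (8 / 27) ^ m := by positivity
  have p2 : (0 : ℝ) ≤ 2 * (3 / 2) ^ m * g := by positivity
  have p3 : (0 : ℝ) ≤ (3 / 4) ^ n := by positivity
  have e : ∀ k : ℕ, (1 : ℝ) / ((3 / 2) ^ k) ^ 3 = (8 / 27) ^ k := by
    intro k; rw [← pow_mul, mul_comm, pow_mul, one_div, ← inv_pow]; norm_num
  rcases Nat.eq_zero_or_pos n with rfl | hn
  · have := H 1 le_rfl
    simp only [pow_zero] at *; linarith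
  have h3 := h2 hn
  have e2 : (3 / 2 : ℝ) ^ n * (1 / 2) ^ n = (3 / 4) ^ n := by rw [← mul_pow]; norm_num
  rcases le_total m n with hmn | hmn
  · have h4 := H ((3 / 2) ^ m) (one_le_pow₀ (by norm_num))
    rw [e] at h4
    have h5 : (3 / 2 : ℝ) ^ m ≤ (3 / 2) ^ n := pow_le_pow_right₀ (by norm_num) hmn
    have h6 : (3 / 2 : ℝ) ^ m * h ≤ (3 / 2) ^ m * (2 * g + (1 / 2) ^ n) := by gcongr
    have h7 : (3 / 2 : ℝ) ^ m * (1 / 2) ^ n ≤ (3 / 2) ^ n * (1 / 2) ^ n := by gcongr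
    nlinarith
  · have h4 := H ((3 / 2) ^ n) (one_le_pow₀ (by norm_num))
    rw [e] at h4
    have h5 : (3 / 2 : ℝ) ^ n ≤ (3 / 2) ^ m := pow_le_pow_right₀ (by norm_num) hmn
    have h6 : (3 / 2 : ℝ) ^ n * h ≤ (3 / 2) ^ n * (2 * g + (1 / 2) ^ n) := by gcongr
    have h7 : (3 / 2 : ℝ) ^ n * g ≤ (3 / 2) ^ m * g := by gcongr
    have h8 : (8 / 27 : ℝ) ^ n ≤ (3 / 4) ^ n :=
      pow_le_pow_left₀ (by norm_num) (by norm_num) n
    nlinarith

namespace Mass

variable (M : Mass)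

/-- The epoch claim. -/
structure ECb (τ : ℕ) (z : ℕ → ℝ) (a b j s b₀ n : ℕ) : Prop where
  A1 : ∀ c e, b ≤ c → c ≤ e → e ≤ b₀ →
    M.g τ c e ≤ (2 - 2 * (1 / 2) ^ n) * M.g s c e + (1 / 2) ^ n * M.g b c e
  A2 : 1 ≤ n → ∀ c e, b ≤ c → c ≤ e → e ≤ b₀ → M.g τ c e ≤ 2 * M.g s c e + (1 / 2) ^ n
  A3 : ∑ t ∈ Ico τ b, z t ≤ M.g τ τ b + 552 * M.g s s b₀ + Geo n j + PP j
  A4 : ∀ m i, (j + i) % 4 = 3 → rul ((j + i) / 4) = m → M.g s a b ≤ (1 / 2) ^ m →
    ∑ t ∈ Ico τ b, z t ≤ M.g τ τ b + 552 * M.g s s b₀ + Geo n j + GP m i (M.g s a b)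

lemma ec_exit {τ : ℕ} {z : ℕ → ℝ} {a b j s b₀ : ℕ} (hτ : τ ≤ b)
    (h : ∑ t ∈ Ico τ b, z t ≤ M.g τ τ b + 552 * M.g s s b₀ + Geo 0 j) :
    M.ECb τ z a b j s b₀ 0 where
  A1 c e h1 _ _ := by simpa using M.g_mono e hτ h1
  A2 h := by omega
  A3 := by have := PP_ge j; linarith
  A4 m i _ _ _ := by have := GP_nonneg m i (M.g_nonneg s a b); linarith

/-- Transition of the old-mass potential. -/
lemma GP_step {a b j r s : ℕ} (hp : M.IsPiv a b j r) (hs : s ≤ a) {a' b' : ℕ}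
    (hc : a' = a ∧ b' = r ∨ a' = r + 1 ∧ b' = b) {y : ℝ} (hy : M.g s a' b' + y ≤ M.g s a b)
    (hy0 : 0 ≤ y) {m i : ℕ} (hi : (j + i) % 4 = 3) (hr : rul ((j + i) / 4) = m)
    (hg : M.g s a b ≤ (1 / 2) ^ m) :
    ∃ m' i', (j + 1 + i') % 4 = 3 ∧ rul ((j + 1 + i') / 4) = m' ∧ M.g s a' b' ≤ (1 / 2) ^ m' ∧
      GP m' i' (M.g s a' b') + 2 * (3 / 2) ^ m * y + (8 / 27) ^ m ≤ GP m i (M.g s a b) := by
  have h0 := M.g_nonneg s a' b'
  rcases Nat.eq_zero_or_pos i with rfl | hi0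
  · have hj : j % 4 = 3 := by omega
    have hm : rul (j / 4) = m := by simpa using hr
    have hq := hp.Q hj s hs (by rw [hm]; exact hg)
    rw [hm] at hq
    have hg' : M.g s a' b' ≤ (1 / 2) ^ (m + 1) := by
      rcases hc with ⟨rfl, rfl⟩ | ⟨rfl, rfl⟩
      · exact hq.1
      · exact hq.2
    obtain ⟨i', hi1, hi2, hi3⟩ := exists_sched 3 (m + 1) (j + 1) (by norm_num)
    refine ⟨m + 1, i', hi2, hi3, hg', ?_⟩
    have := GP_le (m + 1) i' hg' hi1
    have h2 : (3 / 2 : ℝ) ^ m * y ≤ (3 / 2) ^ m * M.g s a b := by gcongr; linarith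
    rw [GP.eq_1 m 0]
    simp only [Nat.cast_zero, zero_add, one_mul]
    linarith
  · obtain ⟨i, rfl⟩ : ∃ i', i = i' + 1 := ⟨i - 1, by omega⟩
    refine ⟨m, i, by omega, by rw [← hr]; congr 2; omega, by linarith, ?_⟩
    unfold GP
    have h2 : (3 / 2 : ℝ) ^ m * (M.g s a' b' + y) ≤ (3 / 2) ^ m * M.g s a b := by gcongr
    push_cast
    linarith

theorem bud_aux (τ : ℕ) (z : ℕ → ℝ) : ∀ (k a b j : ℕ), b - a ≤ k → a ≤ τ → τ ≤ b →
    (∀ F ∈ M.blocks a b j, τ ≤ F.1 → ∀ l : ℝ, 1 ≤ l →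
      ∑ t ∈ Ico F.1 F.2, z t ≤ l * M.g τ F.1 F.2 + 1 / l ^ 3) →
    (∑ t ∈ Ico τ b, z t ≤ M.g τ τ b + 552 * M.g a a b + 92) ∧
      ∀ s b₀, s ≤ a → b ≤ b₀ → ∃ n, M.ECb τ z a b j s b₀ n := by
  have triv : ∀ a b j, τ = b → (∑ t ∈ Ico τ b, z t ≤ M.g τ τ b + 552 * M.g a a b + 92) ∧
      ∀ s b₀, s ≤ a → b ≤ b₀ → ∃ n, M.ECb τ z a b j s b₀ n := by
    intro a b j h
    subst h
    refine ⟨?_, fun s b₀ _ _ => ⟨0, M.ec_exit le_rfl ?_⟩⟩
    · have := M.g_nonneg a a τ
      simp [g_self]; linarith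
    · have := M.g_nonneg s s b₀
      have := Geo_nonneg 0 j
      simp [g_self]; linarith
  intro k
  induction k with
  | zero => intro a b j hk h1 h2 _; exact triv a b j (by omega)
  | succ k ih =>
    intro a b j hk haτ hτb H
    by_cases hτ : τ = b
    · exact triv a b j hτ
    have hab : a < b := by omega
    have hp := M.piv_spec hab j
    rw [M.blocks_of_lt hab] at H
    set r := M.piv a b j with hrdef
    have h1 := hp.le; have h2 := hp.lt
    have inner : ∀ s b₀, s ≤ a → b ≤ b₀ → M.g s s b₀ - 1 / 6 < M.g a a b →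
        ∃ n, M.ECb τ z a b j s b₀ n := by
      intro s b₀ hs hb hin
      have hl0 : M.g s s b ≤ M.g s s b₀ := M.g_sub s le_rfl hb
      have hl1 : M.g a a b ≤ M.g s s b := M.g_anti hs hab.le
      have hl2 := M.g_nonneg s s b₀
      by_cases hleft : τ ≤ r
      · -- left turn
        obtain ⟨hmain, hec⟩ := ih a r (j + 1) (by omega) haτ hleft
          (fun F hF => H F (by simp [hF]))
        have HY := H (r, b) (by simp) hleft
        simp only at HY
        have hZ : ∑ t ∈ Ico τ b, z t = ∑ t ∈ Ico τ r, z t + ∑ t ∈ Ico r b, z t :=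
          (sum_Ico_consecutive _ hleft h2.le).symm
        have hgτ := M.g_add τ hleft h2.le
        have HY1 := HY 1 le_rfl
        by_cases hj0 : j % 4 = 0
        · refine ⟨0, M.ec_exit hτb ?_⟩
          have hG : Geo 0 j = 2 := by
            unfold Geo
            have : (5 - j % 4) % 4 = 1 := by omega
            rw [this]; norm_num
          rcases (hp.L hj0).1 with h0 | h0
          · have : τ = r := by omega
            subst this
            simp only [Ico_self, sum_empty, g_self] at *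
            linarith
          · linarith
        obtain ⟨n, hn⟩ := hec s b₀ hs (by omega)
        have hA4 : ∀ m i, (j + i) % 4 = 3 → rul ((j + i) / 4) = m → M.g s a b ≤ (1 / 2) ^ m →
            ∑ t ∈ Ico τ b, z t ≤ M.g τ τ b + 552 * M.g s s b₀ +
              (Geo n (j + 1) + 2 * (3 / 4) ^ n) + GP m i (M.g s a b) := by
          intro m i hi hr hg
          obtain ⟨m', i', e1, e2, e3, e4⟩ := M.GP_step hp hs (Or.inl ⟨rfl, rfl⟩)
            (M.g_add s h1 h2.le).le (M.g_nonneg s r b) hi hr hg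
          have := hn.A4 m' i' e1 e2 e3
          have := block_pay n m (M.g_nonneg τ r b) (M.g_nonneg s r b) HY
            (fun h => hn.A2 h r b le_rfl h2.le hb)
          linarith
        have hA3 : ∑ t ∈ Ico τ b, z t ≤ M.g τ τ b + 552 * M.g s s b₀ +
            (Geo n (j + 1) + 2 * (3 / 4) ^ n) + PP j := by
          have := hn.A3
          have := PP_step j hj0
          have : (0 : ℝ) ≤ (3 / 4) ^ n := by positivity
          linarith
        by_cases hj1 : j % 4 = 1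
        · rw [Geo_stepR n j hj1] at hA3 hA4
          have hR := (hp.R hj1).1
          have hq : (0 : ℝ) ≤ (1 / 2) ^ n := by positivity
          have e2 : ((1 : ℝ) / 2) ^ (n + 1) = (1 / 2) ^ n / 2 := by rw [pow_succ]; ring
          refine ⟨n + 1, fun c e hc hce he => ?_, fun _ c e hc hce he => ?_, hA3, hA4⟩
          · have h3 := hn.A1 c e (by omega) hce he
            have h4 := M.g_prod (s := s) (τ := r) (x := b) (c := c) e (by omega) h2.le hc
            have h5 : M.g b c e * (M.g s s b - M.g r r b) ≤ M.g b c e * (1 / 2) := by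
              gcongr
              · exact M.g_nonneg _ _ _
              · linarith
            have h6 : (1 / 2 : ℝ) ^ n * M.g r c e ≤
                (1 / 2) ^ n * (M.g s c e + M.g b c e * (1 / 2)) := by gcongr; linarith
            rw [e2]; linarith
          · have h3 := hn.A1 c e (by omega) hce he
            have h4 := M.g_add r (a := r) (b := c) (c := e) (by omega) hce
            have h5 : M.g r r e ≤ M.g s s e := M.g_anti (by omega) (by omega)
            have h6 : M.g s s e ≤ M.g s s b₀ := M.g_sub s le_rfl he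
            have h7 : M.g r r b ≤ M.g r r c := M.g_sub r le_rfl hc
            have h8 : (1 / 2 : ℝ) ^ n * M.g r c e ≤ (1 / 2) ^ n * (1 / 2) := by gcongr; linarith
            have h9 : 0 ≤ (1 / 2 : ℝ) ^ n * M.g s c e := mul_nonneg hq (M.g_nonneg _ _ _)
            rw [e2]; linarith
        · rw [Geo_step n j hj1] at hA3 hA4
          refine ⟨n, fun c e hc hce he => ?_, fun h c e hc hce he => hn.A2 h c e (by omega) hce he,
            hA3, hA4⟩
          have h3 := hn.A1 c e (by omega) hce he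
          have h4 : (1 / 2 : ℝ) ^ n * M.g r c e ≤ (1 / 2) ^ n * M.g b c e := by
            gcongr; exact M.g_mono e h2.le hc
          linarith
      · -- right turn
        obtain ⟨hmain, hec⟩ := ih (r + 1) b (j + 1) (by omega) (by omega) hτb
          (fun F hF => H F (by simp [hF]))
        by_cases hj1 : j % 4 = 1
        · refine ⟨0, M.ec_exit hτb ?_⟩
          have := Geo_nonneg 0 j
          rcases (hp.R hj1).2 with h0 | h0
          · omega
          · linarith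
        obtain ⟨n, hn⟩ := hec s b₀ (by omega) hb
        have hG := Geo_step n j hj1
        have hq : (0 : ℝ) ≤ (3 / 4) ^ n := by positivity
        refine ⟨n, hn.A1, hn.A2, ?_, fun m i hi hr hg => ?_⟩
        · by_cases hj0 : j % 4 = 0
          · obtain ⟨i', hi1, hi2, hi3⟩ := exists_sched 3 0 (j + 1) (by norm_num)
            have hg' : M.g s (r + 1) b ≤ (1 / 2) ^ 0 := by
              have := M.g_mono (x := s) (x' := a) (a := r + 1) b hs (by omega)
              have := (hp.L hj0).2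
              simp only [pow_zero]; linarith
            have := hn.A4 0 i' hi2 hi3 hg'
            have := GP_le 0 i' hg' hi1
            have := PP_ge j
            simp only [pow_zero] at *
            linarith
          · have := hn.A3
            have := PP_step j hj0
            linarith
        · obtain ⟨m', i', e1, e2, e3, e4⟩ := M.GP_step hp hs (Or.inr ⟨rfl, rfl⟩) (y := 0)
            (by simpa using M.g_sub s (by omega) le_rfl) le_rfl hi hr hg
          have := hn.A4 m' i' e1 e2 e3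
          have : (0 : ℝ) ≤ (8 / 27) ^ m := by positivity
          linarith
    have hmain : ∑ t ∈ Ico τ b, z t ≤ M.g τ τ b + 552 * M.g a a b + 92 := by
      obtain ⟨n, hn⟩ := inner a b le_rfl le_rfl (by linarith)
      have := hn.A3; have := Geo_le n j; have := PP_le j
      linarith
    refine ⟨hmain, fun s b₀ hs hb => ?_⟩
    by_cases hin : M.g s s b₀ - 1 / 6 < M.g a a b
    · exact inner s b₀ hs hb hin
    · refine ⟨0, M.ec_exit hτb ?_⟩
      have := Geo_nonneg 0 j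
      linarith

theorem bud_le (τ N : ℕ) (hτ : τ ≤ N) (z : ℕ → ℝ)
    (H : ∀ F ∈ M.blocks 0 N 0, τ ≤ F.1 → ∀ l : ℝ, 1 ≤ l →
      ∑ t ∈ Ico F.1 F.2, z t ≤ l * M.g τ F.1 F.2 + 1 / l ^ 3) :
    ∑ t ∈ Ico τ N, z t ≤ 553 * M.g 0 0 N + 92 := by
  have := (M.bud_aux τ z _ 0 N 0 le_rfl (Nat.zero_le _) hτ H).1
  have := M.g_anti (Nat.zero_le τ) hτ
  linarith

end Mass

end Crest.Agent.Pre
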