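import Crest.Agent.Pre.Defs

/-!
# Chaining along the columns of one block
-/

set_option autoImplicit false
set_option linter.unusedSectionVars false

open Finset

namespace Crest.Agent.Pre

variable {n : ℕ} {H : Type} [NormedAddCommGroup H] [InnerProductSpace ℝ H]

/-- The columns in `[a,b)`. -/
def seg (u : ℕ → H) (a b : ℕ) : Fin n → H := fun s => if a ≤ s ∧ (s : ℕ) < b then u s else 0

lemma app_seg_add (u : ℕ → H) {a b c : ℕ} (h1 : a ≤ b) (h2 : b ≤ c) (x : Fin n → ℝ) :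
    app (seg u a c) x = app (seg u a b) x + app (seg u b c) x := by
  unfold app
  rw [← sum_add_distrib]
  refine sum_congr rfl fun s _ => ?_
  rw [← smul_add]; congr 1
  unfold seg
  split_ifs <;> first | omega | simp

lemma app_seg_self (u : ℕ → H) (a : ℕ) (x : Fin n → ℝ) : app (seg u a a) x = 0 := by
  unfold app
  refine sum_eq_zero fun s _ => ?_
  unfold seg
  rw [if_neg (by omega), smul_zero]

/-- Total cost of a list of checks at a column. -/
noncomputable def cost (cs : List (Chk n H)) (s : Fin n) : ℝ :=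
  (cs.map fun c => c.wt * ‖c.u s‖ ^ 2).sum

lemma cost_append (cs cs' : List (Chk n H)) (s : Fin n) :
    cost (cs ++ cs') s = cost cs s + cost cs' s := by simp [cost]

lemma cost_cons (c : Chk n H) (cs : List (Chk n H)) (s : Fin n) :
    cost (c :: cs) s = c.wt * ‖c.u s‖ ^ 2 + cost cs s := by simp [cost]

/-- A clock for the columns below `r`. -/
structure Clock (n : ℕ) (u : ℕ → H) (g : ℕ → ℝ) (r : ℕ) : Prop where
  nonneg : ∀ i, 0 ≤ g i
  step : ∀ i < r, ‖u i‖ ^ 2 + g i ≤ g (i + 1)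
  op : ∀ a b, b ≤ r → ∀ x : Fin n → ℝ, ‖app (seg u a b) x‖ ^ 2 ≤ ∑ s, x s ^ 2

variable {u : ℕ → H} {g : ℕ → ℝ} {r : ℕ}

lemma Clock.hs (h : Clock n u g r) {a b : ℕ} (hab : a ≤ b) (hb : b ≤ r) :
    ∑ s : Fin n, ‖seg u a b s‖ ^ 2 ≤ g b - g a := by
  induction b, hab using Nat.le_induction with
  | base =>
    rw [sub_self]
    refine (sum_eq_zero fun s _ => ?_).le
    unfold seg; rw [if_neg (by omega)]; simp
  | succ b hab ih =>
    have h1 := ih (by omega)
    have h2 := h.step b (by omega)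
    have h3 : ∑ s : Fin n, ‖seg u a (b + 1) s‖ ^ 2 =
        ∑ s : Fin n, ‖seg u a b s‖ ^ 2 +
          ∑ s : Fin n, if (s : ℕ) = b then ‖u b‖ ^ 2 else 0 := by
      rw [← sum_add_distrib]
      refine sum_congr rfl fun s _ => ?_
      unfold seg
      by_cases hs : (s : ℕ) = b
      · rw [if_pos (by omega), if_neg (by omega), if_pos hs, hs]; simp
      · rw [if_neg hs, add_zero]
        congr 2
        exact if_congr (by omega) rfl rfl
    have h4 : (∑ s : Fin n, if (s : ℕ) = b then ‖u b‖ ^ 2 else 0) ≤ ‖u b‖ ^ 2 := by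
      by_cases hbn : b < n
      · rw [sum_eq_single ⟨b, hbn⟩]
        · simp
        · intro s _ hs
          rw [if_neg]; intro h; exact hs (Fin.ext h)
        · simp
      · rw [sum_eq_zero]
        · positivity
        · intro s _; rw [if_neg]; have := s.2; omega
    linarith

lemma Clock.mono (h : Clock n u g r) {a b : ℕ} (hab : a ≤ b) (hb : b ≤ r) : g a ≤ g b := by
  have := h.hs hab hb
  have : 0 ≤ ∑ s : Fin n, ‖seg u a b s‖ ^ 2 := by positivity
  linarith

theorem chain (h : Clock n u g r) : ∀ (k a b : ℕ), b - a ≤ k → a ≤ b → b ≤ r → ∀ w ρ : ℝ,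
    0 < w → 0 < ρ → 100 * w ≤ ρ ^ 2 → g b - g a ≤ w →
    ∃ cs : List (Chk n H), (∀ c ∈ cs, c.Adm) ∧
      (∀ s : Fin n, cost cs s ≤
        if a ≤ s ∧ (s : ℕ) < b then 2 * (w ^ 14 / (ρ ^ 2) ^ 16) * ‖u s‖ ^ 2 else 0) ∧
      ∀ x, (∀ c ∈ cs, c.Q x ≤ c.R) → ∀ τ, a ≤ τ → τ ≤ b → ‖app (seg u a τ) x‖ ≤ 5 * ρ := by
  classical
  have triv : ∀ a : ℕ, ∀ w ρ : ℝ, 0 < ρ → ∃ cs : List (Chk n H), (∀ c ∈ cs, c.Adm) ∧
      (∀ s : Fin n, cost cs s ≤
        if a ≤ s ∧ (s : ℕ) < a then 2 * (w ^ 14 / (ρ ^ 2) ^ 16) * ‖u s‖ ^ 2 else 0) ∧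
      ∀ x, (∀ c ∈ cs, c.Q x ≤ c.R) → ∀ τ, a ≤ τ → τ ≤ a → ‖app (seg u a τ) x‖ ≤ 5 * ρ := by
    intro a w ρ hρ
    refine ⟨[], by simp, fun s => ?_, fun x _ τ h1 h2 => ?_⟩
    · rw [if_neg (by omega)]; simp [cost]
    · obtain rfl : τ = a := by omega
      rw [app_seg_self]; simp; positivity
  intro k
  induction k with
  | zero =>
    intro a b hk hab _ w ρ _ hρ _ _
    obtain rfl : b = a := by omega
    exact triv b w ρ hρ
  | succ k ih =>
    intro a b hk hab hb w ρ hw hρ hwρ hg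
    by_cases hab' : b = a
    · subst hab'; exact triv b w ρ hρ
    have hm := h.mono hab hb
    have hb1 : b - 1 + 1 = b := by omega
    have hex : ∃ p, a ≤ p ∧ (g b - g a) / 2 ≤ g (p + 1) - g a :=
      ⟨b - 1, by omega, by rw [hb1]; linarith⟩
    have hs := Nat.find_spec hex
    have hpb : Nat.find hex ≤ b - 1 := Nat.find_min' hex ⟨by omega, by rw [hb1]; linarith⟩
    have hl : g (Nat.find hex) - g a ≤ w / 2 := by
      rcases eq_or_lt_of_le hs.1 with h0 | h0
      · rw [← h0]; linarith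
      · have := Nat.find_min hex (m := Nat.find hex - 1) (by omega)
        rw [not_and] at this
        have h2 := this (by omega)
        have : Nat.find hex - 1 + 1 = Nat.find hex := by omega
        rw [this] at h2
        linarith
    generalize Nat.find hex = p at hs hpb hl
    obtain ⟨hap, hs⟩ := hs
    have hρ' : 100 * (w / 2) ≤ (4 / 5 * ρ) ^ 2 := by nlinarith
    obtain ⟨c1, a1, k1, b1⟩ := ih a p (by omega) hap (by omega) (w / 2) (4 / 5 * ρ)
      (by positivity) (by positivity) hρ' hl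
    obtain ⟨c2, a2, k2, b2⟩ := ih (p + 1) b (by omega) (by omega) hb (w / 2) (4 / 5 * ρ)
      (by positivity) (by positivity) hρ' (by linarith)
    have hp1 : g (p + 1) ≤ g b := h.mono (by omega) hb
    let c0 : Chk n H := ⟨seg u a (p + 1), w, ρ ^ 2⟩
    refine ⟨c0 :: (c1 ++ c2), ?_, fun s => ?_, fun x hx τ h1 h2 => ?_⟩
    · intro c hc
      simp only [List.mem_cons, List.mem_append] at hc
      rcases hc with rfl | hc | hc
      · exact ⟨hw, hwρ, (h.hs (by omega) (by omega)).trans (by show _ ≤ w; linarith),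
          fun x => h.op _ _ (by omega) x⟩
      · exact a1 c hc
      · exact a2 c hc
    · rw [cost_cons, cost_append]
      have e : 2 * ((w / 2) ^ 14 / ((4 / 5 * ρ) ^ 2) ^ 16) ≤ w ^ 14 / (ρ ^ 2) ^ 16 := by
        have : 2 * ((w / 2) ^ 14 / ((4 / 5 * ρ) ^ 2) ^ 16) =
            (2 * (1 / 2) ^ 14 * (25 / 16) ^ 16) * (w ^ 14 / (ρ ^ 2) ^ 16) := by
          field_simp; ring
        rw [this]
        have : 0 ≤ w ^ 14 / (ρ ^ 2) ^ 16 := by positivity
        nlinarith
      have e' : 2 * ((w / 2) ^ 14 / ((4 / 5 * ρ) ^ 2) ^ 16) * ‖u s‖ ^ 2 ≤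
          w ^ 14 / (ρ ^ 2) ^ 16 * ‖u s‖ ^ 2 := by gcongr
      have p0 : 0 ≤ w ^ 14 / (ρ ^ 2) ^ 16 * ‖u s‖ ^ 2 := by positivity
      have h0 : c0.wt * ‖c0.u s‖ ^ 2 =
          if a ≤ s ∧ (s : ℕ) < p + 1 then w ^ 14 / (ρ ^ 2) ^ 16 * ‖u s‖ ^ 2 else 0 := by
        simp only [c0, Chk.wt, seg]
        split_ifs <;> simp
      have h1 := k1 s
      have h2 := k2 s
      rw [h0]
      split_ifs at h1 h2 ⊢ <;> first | omega | linarith
    · have hx1 := b1 x fun c hc => hx c (by simp [hc])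
      have hx2 := b2 x fun c hc => hx c (by simp [hc])
      by_cases hτ : τ ≤ p
      · have := hx1 τ h1 hτ; linarith
      · have h3 := hx2 τ (by omega) h2
        have h4 : ‖app (seg u a (p + 1)) x‖ ≤ ρ :=
          (pow_le_pow_iff_left₀ (norm_nonneg _) hρ.le two_ne_zero).1 (hx c0 (by simp))
        rw [app_seg_add u (b := p + 1) (by omega) (by omega)]
        have := norm_add_le (app (seg u a (p + 1)) x) (app (seg u (p + 1) τ) x)
        linarith

/-- The fourth root. -/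
noncomputable def qr (w : ℝ) : ℝ := √(√w)

lemma qr_nonneg (w : ℝ) : 0 ≤ qr w := Real.sqrt_nonneg _

lemma qr_pow {w : ℝ} (hw : 0 ≤ w) : qr w ^ 4 = w := by
  have : qr w ^ 4 = (qr w ^ 2) ^ 2 := by ring
  rw [this, qr, Real.sq_sqrt (Real.sqrt_nonneg _), Real.sq_sqrt hw]

lemma qr_mono {w w' : ℝ} (h : w ≤ w') : qr w ≤ qr w' :=
  Real.sqrt_le_sqrt (Real.sqrt_le_sqrt h)

/-- The budget function `w + w^{3/4}`. -/
noncomputable def phi (w : ℝ) : ℝ := w + qr w ^ 3

lemma phi_mono {w w' : ℝ} (h : w ≤ w') : phi w ≤ phi w' := by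
  unfold phi
  have := pow_le_pow_left₀ (qr_nonneg w) (qr_mono h) 3
  linarith

lemma phi_half {w : ℝ} (hw : 0 ≤ w) : phi (w / 2) ≤ 16 / 25 * phi w := by
  unfold phi
  have h1 : qr (w / 2) ≤ 17 / 20 * qr w := by
    refine (pow_le_pow_iff_left₀ (qr_nonneg _) (by have := qr_nonneg w; positivity)
      (show 4 ≠ 0 by norm_num)).1 ?_
    rw [mul_pow, qr_pow hw, qr_pow (by positivity)]; linarith
  have h2 := pow_le_pow_left₀ (qr_nonneg _) h1 3
  rw [mul_pow] at h2
  have : 0 ≤ qr w ^ 3 := by have := qr_nonneg w; positivity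
  linarith

lemma phi_le {w l : ℝ} (hw : 0 ≤ w) (hl : 1 ≤ l) : phi w ≤ 2 * (l * w + 1 / l ^ 3) := by
  unfold phi
  have h0 := qr_nonneg w
  have h1 : w ≤ l * w := by nlinarith
  have h2 : 0 ≤ 1 / l ^ 3 := by positivity
  have h3 : qr w ^ 3 ≤ l * w + 1 / l ^ 3 := by
    by_cases h : 1 ≤ l * qr w
    · have : qr w ^ 3 * 1 ≤ qr w ^ 3 * (l * qr w) := by gcongr
      have e : qr w ^ 3 * (l * qr w) = l * qr w ^ 4 := by ring
      rw [e, qr_pow hw] at this
      linarith
    · push Not at h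
      have h4 : qr w ≤ 1 / l := by rw [le_div_iff₀ (by linarith)]; linarith
      have := pow_le_pow_left₀ h0 h4 3
      rw [one_div_pow] at this
      nlinarith
  linarith

/-- The weight paid by a column with clock value `y`. -/
noncomputable def Wt (y : ℝ) : ℝ := min (y ^ 2) (1 / y ^ 2)

lemma Wt_nonneg (y : ℝ) : 0 ≤ Wt y := le_min (by positivity) (by positivity)

lemma wt_le {w y : ℝ} (hw : 0 < w) (h1 : w / 2 < y) (h2 : y ≤ w) :
    2 * (w ^ 14 / (100 * phi w) ^ 16) ≤ Wt y := by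
  have hq : 0 < qr w := Real.sqrt_pos.2 (Real.sqrt_pos.2 hw)
  have hy : 0 < y := by linarith
  refine le_min ?_ ?_
  · have h3 : (100 * qr w ^ 3) ^ 16 ≤ (100 * phi w) ^ 16 := by
      unfold phi; gcongr; linarith
    have e : (100 * qr w ^ 3) ^ 16 = 100 ^ 16 * w ^ 12 := by
      have : (100 * qr w ^ 3) ^ 16 = 100 ^ 16 * (qr w ^ 4) ^ 12 := by ring
      rw [this, qr_pow hw.le]
    rw [e] at h3
    calc 2 * (w ^ 14 / (100 * phi w) ^ 16) ≤ 2 * (w ^ 14 / (100 ^ 16 * w ^ 12)) := by gcongr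
      _ = 2 / 100 ^ 16 * w ^ 2 := by field_simp
      _ ≤ (w / 2) ^ 2 := by nlinarith [sq_nonneg w]
      _ ≤ y ^ 2 := by gcongr
  · have h3 : (100 * w) ^ 16 ≤ (100 * phi w) ^ 16 := by
      unfold phi; gcongr; have : 0 ≤ qr w ^ 3 := by positivity
      linarith
    calc 2 * (w ^ 14 / (100 * phi w) ^ 16) ≤ 2 * (w ^ 14 / (100 * w) ^ 16) := by gcongr
      _ = 2 / 100 ^ 16 * (1 / w ^ 2) := by field_simp
      _ ≤ 1 / w ^ 2 := by
        have : 0 ≤ 1 / w ^ 2 := by positivity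
        nlinarith
      _ ≤ 1 / y ^ 2 := by gcongr

theorem top (h : Clock n u g r) : ∀ σ, σ ≤ r →
    ∃ cs : List (Chk n H), (∀ c ∈ cs, c.Adm) ∧
      (∀ s : Fin n, cost cs s ≤ if (s : ℕ) < σ then Wt (g (s + 1)) * ‖u s‖ ^ 2 else 0) ∧
      ∀ x, (∀ c ∈ cs, c.Q x ≤ c.R) → ‖app (seg u 0 σ) x‖ ≤ 250 * √(phi (g σ)) ∧
        ∀ τ ≤ σ, ‖app (seg u 0 τ) x‖ ≤ 250 * √(phi (2 * g τ)) := by
  classical
  intro σ
  induction σ using Nat.strong_induction_on with
  | _ σ ih =>
  intro hσ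
  by_cases h0 : σ = 0 ∨ g σ = 0
  · have hz : ∀ τ ≤ σ, ∀ x : Fin n → ℝ, app (seg u 0 τ) x = 0 := by
      intro τ hτ x
      rcases h0 with h0 | h0
      · obtain rfl : τ = 0 := by omega
        exact app_seg_self _ _ _
      · have h1 := h.hs (Nat.zero_le τ) (hτ.trans hσ)
        have h2 := h.mono hτ hσ
        have h3 := h.nonneg 0
        have h4 : ∑ s : Fin n, ‖seg u 0 τ s‖ ^ 2 = 0 :=
          le_antisymm (by linarith) (by positivity)
        rw [sum_eq_zero_iff_of_nonneg (fun _ _ => by positivity)] at h4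
        refine sum_eq_zero fun s hs => ?_
        have := h4 s hs
        rw [pow_eq_zero_iff two_ne_zero, norm_eq_zero] at this
        rw [this, smul_zero]
    refine ⟨[], by simp, fun s => ?_, fun x _ => ⟨?_, fun τ hτ => ?_⟩⟩
    · have := Wt_nonneg (g (s + 1))
      split_ifs
      · simp only [cost, List.map_nil, List.sum_nil]; positivity
      · simp [cost]
    · rw [hz σ le_rfl]; simp
    · rw [hz τ hτ]; simp
  push Not at h0
  have hw : 0 < g σ := lt_of_le_of_ne (h.nonneg σ) h0.2.symm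
  set w := g σ with hwdef
  set σ' := Nat.findGreatest (fun i => g i ≤ w / 2) (σ - 1) with hσ'
  have hle : σ' ≤ σ - 1 := Nat.findGreatest_le _
  have hbig : ∀ i, σ' < i → i ≤ σ → w / 2 < g i := by
    intro i h1 h2
    rcases eq_or_lt_of_le h2 with rfl | h3
    · linarith
    · exact not_le.1 (Nat.findGreatest_is_greatest (P := fun i => g i ≤ w / 2) h1 (by omega))
  have hsmall : σ' = 0 ∨ g σ' ≤ w / 2 := by
    by_cases h1 : σ' = 0
    · exact Or.inl h1
    · exact Or.inr (Nat.findGreatest_of_ne_zero (P := fun i => g i ≤ w / 2) hσ'.symm h1)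
  have hφ : 0 < phi w := by
    unfold phi; have := qr_nonneg w; positivity
  have hρ : (10 * √(phi w)) ^ 2 = 100 * phi w := by
    rw [mul_pow, Real.sq_sqrt hφ.le]; norm_num
  obtain ⟨c1, a1, k1, b1⟩ := ih σ' (by omega) (by omega)
  obtain ⟨c2, a2, k2, b2⟩ := chain h _ σ' σ le_rfl (by omega) hσ w (10 * √(phi w)) hw
    (by have := Real.sqrt_pos.2 hφ; positivity)
    (by rw [hρ]; unfold phi; have := qr_nonneg w; have : 0 ≤ qr w ^ 3 := by positivity
        linarith) (by have := h.nonneg σ'; linarith)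
  refine ⟨c1 ++ c2, ?_, fun s => ?_, fun x hx => ?_⟩
  · intro c hc
    rcases List.mem_append.1 hc with hc | hc
    · exact a1 c hc
    · exact a2 c hc
  · rw [cost_append]
    have h1 := k1 s
    have h2 := k2 s
    by_cases hs : σ' ≤ s ∧ (s : ℕ) < σ
    · rw [if_pos hs, hρ] at h2
      rw [if_neg (by omega)] at h1
      rw [if_pos hs.2]
      have h3 := wt_le hw (hbig (s + 1) (by omega) (by omega)) (h.mono (by omega) hσ)
      have : 2 * (w ^ 14 / (100 * phi w) ^ 16) * ‖u s‖ ^ 2 ≤ Wt (g (s + 1)) * ‖u s‖ ^ 2 := by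
        gcongr
      linarith
    · rw [if_neg hs] at h2
      split_ifs at h1 ⊢ <;> first | omega | linarith
  · obtain ⟨hx1, hx1'⟩ := b1 x fun c hc => hx c (by simp [hc])
    have hx2 := b2 x fun c hc => hx c (by simp [hc])
    have hs0 := Real.sqrt_nonneg (phi w)
    have hfull : ‖app (seg u 0 σ') x‖ ≤ 200 * √(phi w) := by
      rcases hsmall with h1 | h1
      · rw [h1, app_seg_self]; simp
      · refine hx1.trans ?_
        have h2 : √(phi (g σ')) ≤ 4 / 5 * √(phi w) := by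
          rw [Real.sqrt_le_left (by positivity), mul_pow, Real.sq_sqrt hφ.le]
          have := phi_mono h1
          have := phi_half hw.le
          linarith
        linarith
    have hmid : ∀ τ, σ' ≤ τ → τ ≤ σ → ‖app (seg u 0 τ) x‖ ≤ 250 * √(phi w) := by
      intro τ h1 h2
      rw [app_seg_add u (Nat.zero_le σ') h1]
      have := norm_add_le (app (seg u 0 σ') x) (app (seg u σ' τ) x)
      have := hx2 τ h1 h2
      linarith
    refine ⟨hmid σ (by omega) le_rfl, fun τ hτ => ?_⟩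
    by_cases h1 : τ ≤ σ'
    · exact hx1' τ h1
    · refine (hmid τ (by omega) hτ).trans ?_
      have := hbig τ (by omega) hτ
      gcongr
      exact phi_mono (by linarith)

theorem block (h : Clock n u g r) :
    ∃ cs : List (Chk n H), (∀ c ∈ cs, c.Adm) ∧
      (∀ s : Fin n, cost cs s ≤ if (s : ℕ) < r then Wt (g (s + 1)) * ‖u s‖ ^ 2 else 0) ∧
      ∀ x, (∀ c ∈ cs, c.Q x ≤ c.R) → ∀ τ ≤ r, ∀ l : ℝ, 1 ≤ l →
        ‖app (seg u 0 τ) x‖ ^ 2 ≤ 250000 * (l * g τ + 1 / l ^ 3) := by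
  obtain ⟨cs, h1, h2, h3⟩ := top h r le_rfl
  refine ⟨cs, h1, h2, fun x hx τ hτ l hl => ?_⟩
  have h4 := (h3 x hx).2 τ hτ
  have hg := h.nonneg τ
  have hφ : 0 ≤ phi (2 * g τ) := by
    unfold phi; have := qr_nonneg (2 * g τ); positivity
  have h5 := pow_le_pow_left₀ (norm_nonneg _) h4 2
  rw [mul_pow, Real.sq_sqrt hφ] at h5
  have h6 := phi_le (w := 2 * g τ) (by positivity) hl
  have : 0 ≤ 1 / l ^ 3 := by positivity
  linarith

end Crest.Agent.Pre
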