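import Crest.Agent.Pre.Tree

/-!
# Payments: a pair (birth, death) pays a bounded total weight
-/

set_option autoImplicit false

open Finset

namespace Crest.Agent.Pre

namespace Mass

variable (M : Mass)

/-- Total weight paid by a pair alive from time `x` and dying at step `t`. -/
noncomputable def pay (W : ℝ → ℝ) (x t a b j : ℕ) : ℝ :=
  ((M.blocks a b j).map fun F =>
    if F.1 ≤ t ∧ t < F.2 ∧ x ≤ F.1 then W (M.g x F.1 F.2) else 0).sum

lemma pay_zero (W : ℝ → ℝ) (x t a b j : ℕ) (h : t < a ∨ b ≤ t) : M.pay W x t a b j = 0 := by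
  unfold pay
  apply List.sum_eq_zero
  intro y hy
  obtain ⟨F, hF, rfl⟩ := List.mem_map.1 hy
  have := M.mem_blocks _ a b j le_rfl F hF
  rw [if_neg (by omega)]

lemma pay_step (W : ℝ → ℝ) (x t : ℕ) {a b : ℕ} (h : a < b) (j : ℕ) :
    M.pay W x t a b j =
      (if M.piv a b j ≤ t ∧ t < b ∧ x ≤ M.piv a b j then W (M.g x (M.piv a b j) b) else 0) +
        (M.pay W x t a (M.piv a b j) (j + 1) + M.pay W x t (M.piv a b j + 1) b (j + 1)) := by
  unfold pay
  rw [M.blocks_of_lt h]
  simp only [List.map_cons, List.map_append, List.sum_cons, List.sum_append]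

variable {W : ℝ → ℝ}

lemma pay_small (hW : ∀ y, 0 ≤ y → W y ≤ y ^ 2) (x t : ℕ) :
    ∀ (k a b j : ℕ), b - a ≤ k → x ≤ a → ∀ m i : ℕ, (j + i) % 4 = 3 → rul ((j + i) / 4) = m →
      M.g x a b ≤ (1 / 2) ^ m →
      M.pay W x t a b j ≤ (i + 1) * (1 / 4) ^ m + 12 * (1 / 2) ^ m := by
  intro k
  induction k with
  | zero =>
    intro a b j hk _ m i _ _ _
    rw [M.pay_zero W x t a b j (by omega)]; positivity
  | succ k ih =>
    intro a b j hk hx m i hi hr hg
    by_cases hab : a < b
    swap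
    · rw [M.pay_zero W x t a b j (by omega)]; positivity
    have hp := M.piv_spec hab j
    set r := M.piv a b j with hrdef
    have h1 := hp.le; have h2 := hp.lt
    -- bound for a child
    have child : ∀ a' b', b' - a' ≤ k → a ≤ a' → b' ≤ b → (a' = a ∧ b' = r ∨ a' = r + 1 ∧ b' = b) →
        M.pay W x t a' b' (j + 1) ≤ i * (1 / 4) ^ m + 12 * (1 / 2) ^ m := by
      intro a' b' hk' ha' hb' hc
      rcases Nat.eq_zero_or_pos i with rfl | hi0
      · have hj : j % 4 = 3 := by omega
        have hm : rul (j / 4) = m := by simpa using hr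
        have hq := hp.Q hj x hx (by rw [hm]; exact hg)
        rw [hm] at hq
        have hg' : M.g x a' b' ≤ (1 / 2) ^ (m + 1) := by
          rcases hc with ⟨rfl, rfl⟩ | ⟨rfl, rfl⟩
          · exact hq.1
          · exact hq.2
        obtain ⟨i', hi1, hi2, hi3⟩ := exists_sched 3 (m + 1) (j + 1) (by norm_num)
        have := ih a' b' (j + 1) hk' (by omega) (m + 1) i' hi2 hi3 hg'
        have hi4 : ((i' : ℝ) + 1) ≤ 12 * 2 ^ (m + 1) := by exact_mod_cast hi1
        have e : (12 * 2 ^ (m + 1) : ℝ) * (1 / 4) ^ (m + 1) = 12 * (1 / 2) ^ (m + 1) := by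
          rw [mul_assoc, ← mul_pow]; norm_num
        have h5 : ((i' : ℝ) + 1) * (1 / 4) ^ (m + 1) ≤ 12 * (1 / 2) ^ (m + 1) := by
          rw [← e]; gcongr
        have e2 : ((1 : ℝ) / 2) ^ (m + 1) = (1 / 2) ^ m / 2 := by rw [pow_succ]; ring
        simp only [Nat.cast_zero, zero_mul, zero_add]
        linarith
      · obtain ⟨i, rfl⟩ : ∃ i', i = i' + 1 := ⟨i - 1, by omega⟩
        have := ih a' b' (j + 1) hk' (by omega) m i (by omega)
          (by rw [← hr]; congr 2; omega) ((M.g_sub x ha' hb').trans hg)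
        push_cast; exact this
    rw [M.pay_step W x t hab, ← hrdef]
    have hw : W (M.g x r b) ≤ (1 / 4) ^ m := by
      refine (hW _ (M.g_nonneg _ _ _)).trans ?_
      have h3 : M.g x r b ≤ (1 / 2) ^ m := (M.g_sub x h1 le_rfl).trans hg
      calc M.g x r b ^ 2 ≤ ((1 / 2) ^ m) ^ 2 := by gcongr; exact M.g_nonneg _ _ _
        _ = (1 / 4) ^ m := by rw [← pow_mul, mul_comm, pow_mul]; norm_num
    have hpos : (0 : ℝ) ≤ (1 / 4) ^ m := by positivity
    by_cases ht : t < r
    · rw [if_neg (by omega), M.pay_zero W x t (r + 1) b _ (by omega)]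
      have := child a r (by omega) le_rfl h2.le (Or.inl ⟨rfl, rfl⟩)
      linarith
    · rw [M.pay_zero W x t a r _ (by omega)]
      have := child (r + 1) b (by omega) (by omega) le_rfl (Or.inr ⟨rfl, rfl⟩)
      split_ifs <;> linarith

lemma pay_one (hW : ∀ y, 0 ≤ y → W y ≤ y ^ 2) (x t a b j : ℕ) (hx : x ≤ a)
    (hg : M.g x a b ≤ 1) : M.pay W x t a b j ≤ 24 := by
  obtain ⟨i, hi1, hi2, hi3⟩ := exists_sched 3 0 j (by norm_num)
  have := M.pay_small hW x t _ a b j le_rfl hx 0 i hi2 hi3 (by simpa using hg)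
  have h : ((i : ℝ) + 1) ≤ 12 := by exact_mod_cast hi1
  simp at this; linarith

lemma pay_large (hW : ∀ y, 0 ≤ y → W y ≤ y ^ 2) (hW' : ∀ y, 1 ≤ y → W y ≤ 1 / y ^ 2) (x t : ℕ) :
    ∀ (k a b j : ℕ), b - a ≤ k → x ≤ a → ∀ m i : ℕ, (j + i) % 4 = 2 → rul ((j + i) / 4) = m →
      M.g x a b ≤ 2 ^ (m + 1) →
      M.pay W x t a b j ≤ 51 - 26 * (1 / 2) ^ m + (i + 1) * (1 / 4) ^ m := by
  have hle : ∀ m : ℕ, ((1 : ℝ) / 2) ^ m ≤ 1 := fun m => pow_le_one₀ (by norm_num) (by norm_num)
  have hq : ∀ m : ℕ, ((1 : ℝ) / 4) ^ m ≤ (1 / 2) ^ m := fun m => by gcongr; norm_num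
  intro k
  induction k with
  | zero =>
    intro a b j hk _ m i _ _ _
    rw [M.pay_zero W x t a b j (by omega)]
    have := hle m; have : (0 : ℝ) ≤ (i + 1) * (1 / 4) ^ m := by positivity
    linarith
  | succ k ih =>
    intro a b j hk hx m i hi hr hg
    by_cases hab : a < b
    swap
    · rw [M.pay_zero W x t a b j (by omega)]
      have := hle m; have : (0 : ℝ) ≤ (i + 1) * (1 / 4) ^ m := by positivity
      linarith
    have hp := M.piv_spec hab j
    set r := M.piv a b j with hrdef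
    have h1 := hp.le; have h2 := hp.lt
    -- general bound at level `m'`
    have lev : ∀ a' b', b' - a' ≤ k → a ≤ a' → ∀ m' : ℕ, M.g x a' b' ≤ 2 ^ m' →
        M.pay W x t a' b' (j + 1) + min 1 (4 * (1 / 4) ^ m') ≤ 51 - 26 * (1 / 2) ^ m' := by
      intro a' b' hk' ha' m' hg'
      rcases m' with _ | m'
      · have := M.pay_one hW x t a' b' (j + 1) (by omega) (by simpa using hg')
        have := min_le_left (1 : ℝ) (4 * (1 / 4) ^ 0)
        simp only [pow_zero] at *; linarith
      · obtain ⟨i', hi1, hi2, hi3⟩ := exists_sched 2 m' (j + 1) (by norm_num)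
        have := ih a' b' (j + 1) hk' (by omega) m' i' hi2 hi3 hg'
        have hi4 : ((i' : ℝ) + 1) ≤ 12 * 2 ^ m' := by exact_mod_cast hi1
        have e : (12 * 2 ^ m' : ℝ) * (1 / 4) ^ m' = 12 * (1 / 2) ^ m' := by
          rw [mul_assoc, ← mul_pow]; norm_num
        have h5 : ((i' : ℝ) + 1) * (1 / 4) ^ m' ≤ 12 * (1 / 2) ^ m' := by
          rw [← e]; gcongr
        have e2 : ((1 : ℝ) / 2) ^ (m' + 1) = (1 / 2) ^ m' / 2 := by rw [pow_succ]; ring
        have e3 : ((1 : ℝ) / 4) ^ (m' + 1) = (1 / 4) ^ m' / 4 := by rw [pow_succ]; ring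
        have := min_le_right (1 : ℝ) (4 * (1 / 4) ^ (m' + 1))
        have := hq m'
        linarith
    have child : ∀ a' b', b' - a' ≤ k → a ≤ a' → b' ≤ b → (a' = a ∧ b' = r ∨ a' = r + 1 ∧ b' = b) →
        M.pay W x t a' b' (j + 1) ≤ 51 - 26 * (1 / 2) ^ m + i * (1 / 4) ^ m := by
      intro a' b' hk' ha' hb' hc
      rcases Nat.eq_zero_or_pos i with rfl | hi0
      · have hj : j % 4 = 2 := by omega
        have hm : rul (j / 4) = m := by simpa using hr
        have hq := hp.P hj x hx (by rw [hm]; exact hg)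
        rw [hm] at hq
        have hg' : M.g x a' b' ≤ 2 ^ m := by
          rcases hc with ⟨rfl, rfl⟩ | ⟨rfl, rfl⟩
          · exact hq.1
          · exact hq.2
        have := lev a' b' hk' ha' m hg'
        have : (0 : ℝ) ≤ min 1 (4 * (1 / 4) ^ m) := by positivity
        simp only [Nat.cast_zero, zero_mul, add_zero]
        linarith
      · obtain ⟨i, rfl⟩ : ∃ i', i = i' + 1 := ⟨i - 1, by omega⟩
        have := ih a' b' (j + 1) hk' (by omega) m i (by omega)
          (by rw [← hr]; congr 2; omega) ((M.g_sub x ha' hb').trans hg)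
        push_cast; exact this
    rw [M.pay_step W x t hab, ← hrdef]
    have hpos : (0 : ℝ) ≤ (1 / 4) ^ m := by positivity
    have hipos : (0 : ℝ) ≤ i * (1 / 4) ^ m := by positivity
    by_cases ht : t < r
    · rw [if_neg (by omega), M.pay_zero W x t (r + 1) b _ (by omega)]
      have := child a r (by omega) le_rfl h2.le (Or.inl ⟨rfl, rfl⟩)
      linarith
    · rw [M.pay_zero W x t a r _ (by omega)]
      have hc := child (r + 1) b (by omega) (by omega) le_rfl (Or.inr ⟨rfl, rfl⟩)
      split_ifs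
      swap
      · linarith
      set y := M.g x r b with hy
      have hy0 : 0 ≤ y := M.g_nonneg _ _ _
      have hsub : M.g x (r + 1) b ≤ y := M.g_sub x (by omega) le_rfl
      have hWp : ∀ p : ℕ, (2 : ℝ) ^ p ≤ y → W y ≤ (1 / 4) ^ p := by
        intro p hp'
        have h2p : (1 : ℝ) ≤ 2 ^ p := one_le_pow₀ (by norm_num)
        refine (hW' y (h2p.trans hp')).trans ?_
        calc 1 / y ^ 2 ≤ 1 / ((2 : ℝ) ^ p) ^ 2 := by gcongr
          _ = (1 / 4) ^ p := by rw [← pow_mul, mul_comm, pow_mul, one_div_pow]; norm_num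
      by_cases hbig : (2 : ℝ) ^ m ≤ y
      · have := hWp m hbig
        linarith
      push Not at hbig
      by_cases hone : y ≤ 1
      · have := lev (r + 1) b (by omega) (by omega) 0 (by simpa using hsub.trans hone)
        have h3 : W y ≤ 1 := (hW y hy0).trans (by nlinarith)
        have h4 : min (1 : ℝ) (4 * (1 / 4) ^ 0) = 1 := by norm_num
        rw [h4] at this
        have := hle m
        simp only [pow_zero] at *
        linarith
      push Not at hone
      obtain ⟨p, hp1, hp2⟩ := exists_nat_pow_near hone.le (show (1 : ℝ) < 2 by norm_num)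
      have hpm : p < m := by
        by_contra hcon
        have : (2 : ℝ) ^ m ≤ 2 ^ p := pow_le_pow_right₀ (by norm_num) (by omega)
        linarith
      have h3 := lev (r + 1) b (by omega) (by omega) (p + 1) (hsub.trans hp2.le)
      have h4 := hWp p hp1
      have h5 : ((1 : ℝ) / 4) ^ p ≤ min 1 (4 * (1 / 4) ^ (p + 1)) := by
        refine le_min (pow_le_one₀ (by norm_num) (by norm_num)) ?_
        rw [pow_succ]; linarith
      have h6 : ((1 : ℝ) / 2) ^ m ≤ (1 / 2) ^ (p + 1) :=
        pow_le_pow_of_le_one (by norm_num) (by norm_num) (by omega)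
      linarith

lemma pay_old (hW : ∀ y, 0 ≤ y → W y ≤ y ^ 2) (hW' : ∀ y, 1 ≤ y → W y ≤ 1 / y ^ 2)
    (x t a b j : ℕ) (hx : x ≤ a) : M.pay W x t a b j ≤ 63 := by
  obtain ⟨m, hm⟩ := pow_unbounded_of_one_lt (M.g x a b) (show (1 : ℝ) < 2 by norm_num)
  obtain ⟨i, hi1, hi2, hi3⟩ := exists_sched 2 m j (by norm_num)
  have hg : M.g x a b ≤ 2 ^ (m + 1) := by
    have : (0 : ℝ) < 2 ^ m := by positivity
    rw [pow_succ]; linarith
  have := M.pay_large hW hW' x t _ a b j le_rfl hx m i hi2 hi3 hg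
  have hi4 : ((i : ℝ) + 1) ≤ 12 * 2 ^ m := by exact_mod_cast hi1
  have e : (12 * 2 ^ m : ℝ) * (1 / 4) ^ m = 12 * (1 / 2) ^ m := by
    rw [mul_assoc, ← mul_pow]; norm_num
  have h5 : ((i : ℝ) + 1) * (1 / 4) ^ m ≤ 12 * (1 / 2) ^ m := by
    rw [← e]; gcongr
  have : (0 : ℝ) ≤ (1 / 2) ^ m := by positivity
  linarith

theorem pay_le (hW : ∀ y, 0 ≤ y → W y ≤ y ^ 2) (hW' : ∀ y, 1 ≤ y → W y ≤ 1 / y ^ 2) (x t : ℕ) :
    ∀ (k a b j : ℕ), b - a ≤ k → M.pay W x t a b j ≤ 64 := by
  have hW1 : ∀ y, 0 ≤ y → W y ≤ 1 := by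
    intro y hy
    by_cases h : y ≤ 1
    · exact (hW y hy).trans (by nlinarith)
    · push Not at h
      refine (hW' y h.le).trans ?_
      rw [div_le_one (by positivity)]; nlinarith
  intro k
  induction k with
  | zero => intro a b j hk; rw [M.pay_zero W x t a b j (by omega)]; norm_num
  | succ k ih =>
    intro a b j hk
    by_cases hab : a < b
    swap
    · rw [M.pay_zero W x t a b j (by omega)]; norm_num
    have hp := M.piv_spec hab j
    rw [M.pay_step W x t hab]
    set r := M.piv a b j with hrdef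
    have h1 := hp.le; have h2 := hp.lt
    by_cases ht : t < r
    · rw [if_neg (by omega), M.pay_zero W x t (r + 1) b _ (by omega)]
      have := ih a r (j + 1) (by omega)
      linarith
    · rw [M.pay_zero W x t a r _ (by omega)]
      split_ifs with h
      · have := M.pay_old hW hW' x t (r + 1) b (j + 1) (by omega)
        have := hW1 _ (M.g_nonneg x r b)
        linarith
      · have := ih (r + 1) b (j + 1) (by omega)
        linarith

end Mass

end Crest.Agent.Pre
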