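import Crest.Agent.Pre.Filter
import Crest.Agent.Pre.Pay
import Crest.Agent.Pre.Bud
import Crest.Agent.Pre.Chain

/-!
# The list of checks controlling all filter states
-/

set_option autoImplicit false
set_option linter.unusedSectionVars false

open Finset
open scoped RealInnerProductSpace

namespace Crest.Agent.Pre

/-- Extension by zero of a finite vector, restricted to `[a,b)`. -/
def extv {n : ℕ} (a b : ℕ) (x : Fin n → ℝ) (i : ℕ) : ℝ :=
  if h : i < n ∧ a ≤ i ∧ i < b then x ⟨i, h.1⟩ else 0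

lemma sum_extv {n : ℕ} {M : Type} [AddCommMonoid M] (φ : ℕ → ℝ → M) (h0 : ∀ i, φ i 0 = 0)
    (a b k : ℕ) (hb : b ≤ k) (x : Fin n → ℝ) :
    ∑ i ∈ range k, φ i (extv a b x i) =
      ∑ s : Fin n, if a ≤ s ∧ (s : ℕ) < b then φ s (x s) else 0 := by
  have h1 : ∑ i ∈ range k, φ i (extv a b x i) = ∑ i ∈ range (max n k), φ i (extv a b x i) := by
    refine sum_subset (range_subset_range.2 (le_max_right _ _)) fun i _ hi => ?_
    rw [extv, dif_neg (by simp at hi; omega), h0]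
  have h2 : ∑ i ∈ range n, φ i (extv a b x i) = ∑ i ∈ range (max n k), φ i (extv a b x i) := by
    refine sum_subset (range_subset_range.2 (le_max_left _ _)) fun i _ hi => ?_
    rw [extv, dif_neg (by simp at hi; omega), h0]
  rw [h1, ← h2, ← Fin.sum_univ_eq_sum_range (fun i => φ i (extv a b x i))]
  refine sum_congr rfl fun s _ => ?_
  unfold extv
  by_cases h : a ≤ s ∧ (s : ℕ) < b
  · rw [if_pos h, dif_pos ⟨s.2, h⟩]
  · rw [if_neg h, dif_neg (by tauto), h0]

lemma app_seg_eq {n : ℕ} {H : Type} [NormedAddCommGroup H] [InnerProductSpace ℝ H]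
    (u : ℕ → H) (a b k : ℕ) (hb : b ≤ k) (x : Fin n → ℝ) :
    app (seg u a b) x = ∑ i ∈ range k, extv a b x i • u i := by
  rw [sum_extv (fun i c => c • u i) (by simp) a b k hb]
  unfold app seg
  refine sum_congr rfl fun s _ => ?_
  split_ifs <;> simp

lemma extv_sq_le {n : ℕ} (a b k : ℕ) (hb : b ≤ k) (x : Fin n → ℝ) :
    ∑ i ∈ range k, extv a b x i ^ 2 ≤ ∑ s, x s ^ 2 := by
  rw [sum_extv (fun _ c => c ^ 2) (by simp) a b k hb]
  refine sum_le_sum fun s _ => ?_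
  split_ifs
  · exact le_rfl
  · positivity

lemma sum_fin_Ico {N r b : ℕ} (hb : b ≤ N) (φ : ℕ → ℝ) :
    (∑ t : Fin N, if r ≤ t ∧ (t : ℕ) < b then φ t else 0) = ∑ t ∈ Ico r b, φ t := by
  rw [Fin.sum_univ_eq_sum_range (fun t => if r ≤ t ∧ t < b then φ t else 0), ← sum_filter]
  congr 1
  ext t; simp; omega

variable {E : Type} [NormedAddCommGroup E] [InnerProductSpace ℝ E] [FiniteDimensional ℝ E]
  {p : ℕ → E}

/-- The column `i` of the output matrix, restricted to the rows `[r,b)`. -/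
noncomputable def col (p : ℕ → E) (N r b i : ℕ) : EuclideanSpace ℝ (Fin N) :=
  WithLp.toLp 2 fun t => if r ≤ t ∧ (t : ℕ) < b then Vm p t i else 0

lemma norm_sum_col {N r b : ℕ} (hb : b ≤ N) (ξ : ℕ → ℝ) (k : ℕ) :
    ‖∑ i ∈ range k, ξ i • col p N r b i‖ ^ 2 =
      ∑ t ∈ Ico r b, (∑ i ∈ range k, ξ i * Vm p t i) ^ 2 := by
  rw [EuclideanSpace.real_norm_sq_eq, ← sum_fin_Ico hb]
  refine sum_congr rfl fun t _ => ?_
  simp only [WithLp.ofLp_sum, WithLp.ofLp_smul, Finset.sum_apply, Pi.smul_apply, col, smul_eq_mul]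
  split_ifs <;> simp

lemma norm_col {N r b : ℕ} (hb : b ≤ N) (i : ℕ) :
    ‖col p N r b i‖ ^ 2 = ∑ t ∈ Ico r b, Vm p t i ^ 2 := by
  rw [EuclideanSpace.real_norm_sq_eq, ← sum_fin_Ico hb]
  refine sum_congr rfl fun t _ => ?_
  simp only [col]
  split_ifs <;> simp

lemma clock_col (hp : ∀ t, ‖p t‖ ≤ 1) (n : ℕ) {N r b : ℕ} (hr : r ≤ b) (hb : b ≤ N) :
    Clock n (col p N r b) (fun x => (mass p hp).g x r b) r where
  nonneg := fun _ => (mass p hp).g_nonneg _ _ _
  step := fun i hi => by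
    rw [norm_col hb]
    unfold Mass.g
    rw [← sum_add_distrib]
    refine sum_le_sum fun t ht => ?_
    have := Rm_succ hp (show i < t by have := mem_Ico.1 ht; omega)
    simp only [mass]
    linarith
  op := fun a c hc x => by
    rw [app_seg_eq _ a c r hc, norm_sum_col hb]
    have h1 := Fl_energy hp hr (Yst p (extv a c x) r)
    have h2 := Yst_le hp (extv a c x) r
    have h3 := extv_sq_le a c r hc x
    have h4 : ∑ t ∈ Ico r b, (∑ i ∈ range r, extv a c x i * Vm p t i) ^ 2 =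
        ∑ t ∈ Ico r b, ⟪ov (p t), Fl p r t (Yst p (extv a c x) r)⟫ ^ 2 :=
      sum_congr rfl fun t ht => by rw [inner_Yst _ (mem_Ico.1 ht).1]
    nlinarith [sq_nonneg ‖Fl p r b (Yst p (extv a c x) r)‖]

lemma cost_flatMap {n : ℕ} {H : Type} [NormedAddCommGroup H] [InnerProductSpace ℝ H] {α : Type}
    (L : List α) (c : α → List (Chk n H)) (s : Fin n) :
    cost (L.flatMap c) s = (L.map fun F => cost (c F) s).sum := by
  induction L with
  | nil => simp [cost]
  | cons a L ih => rw [List.flatMap_cons, cost_append, ih]; simp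

lemma list_sum_comm {α : Type} (L : List α) (S : Finset ℕ) (φ : α → ℕ → ℝ) :
    (L.map fun F => ∑ t ∈ S, φ F t).sum = ∑ t ∈ S, (L.map fun F => φ F t).sum := by
  induction L with
  | nil => simp
  | cons a L ih => simp [ih, sum_add_distrib]

theorem filter_checks (hp : ∀ t, ‖p t‖ ≤ 1) {ι : Type} [Fintype ι] (e : OrthonormalBasis ι ℝ E)
    (n N : ℕ) (hn : n ≤ N) (hkill : ∀ y, Fl p n N y = 0) :
    ∃ cs : List (Chk n (EuclideanSpace ℝ (Fin N))), (∀ c ∈ cs, c.Adm) ∧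
      (∀ s, cost cs s ≤ 64) ∧ ∀ x, (∀ c ∈ cs, c.Q x ≤ c.R) → ∀ τ ≤ n,
        ‖Yst p (extv 0 τ x) τ‖ ^ 2 ≤ 250000 * (553 * Fintype.card ι + 92) := by
  set M := mass p hp with hM
  have hex : ∀ F : ℕ × ℕ, ∃ cs : List (Chk n (EuclideanSpace ℝ (Fin N))),
      F.1 ≤ F.2 → F.2 ≤ N → (∀ c ∈ cs, c.Adm) ∧
      (∀ s : Fin n, cost cs s ≤ if (s : ℕ) < F.1 then
        Wt (M.g (s + 1) F.1 F.2) * ‖col p N F.1 F.2 s‖ ^ 2 else 0) ∧
      ∀ x, (∀ c ∈ cs, c.Q x ≤ c.R) → ∀ τ ≤ F.1, ∀ l : ℝ, 1 ≤ l →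
        ‖app (seg (col p N F.1 F.2) 0 τ) x‖ ^ 2 ≤ 250000 * (l * M.g τ F.1 F.2 + 1 / l ^ 3) := by
    intro F
    by_cases h : F.1 ≤ F.2 ∧ F.2 ≤ N
    · obtain ⟨cs, h1⟩ := block (clock_col hp n h.1 h.2)
      exact ⟨cs, fun _ _ => h1⟩
    · exact ⟨[], fun h1 h2 => absurd ⟨h1, h2⟩ h⟩
  choose c hc using hex
  have hc' := fun F (hF : F ∈ M.blocks 0 N 0) =>
    hc F (M.mem_blocks _ 0 N 0 le_rfl F hF).2.1.le (M.mem_blocks _ 0 N 0 le_rfl F hF).2.2
  refine ⟨(M.blocks 0 N 0).flatMap c, fun k hk => ?_, fun s => ?_, fun x hx τ hτ => ?_⟩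
  · obtain ⟨F, hF, hk⟩ := List.mem_flatMap.1 hk
    exact (hc' F hF).1 k hk
  · rw [cost_flatMap]
    calc _ ≤ ((M.blocks 0 N 0).map fun F => ∑ t ∈ Ico (s + 1 : ℕ) N, Vm p t s ^ 2 *
          (if F.1 ≤ t ∧ t < F.2 ∧ (s : ℕ) + 1 ≤ F.1 then Wt (M.g (s + 1) F.1 F.2) else 0)).sum := by
          refine List.sum_le_sum fun F hF => ((hc' F hF).2.1 s).trans ?_
          have hF' := M.mem_blocks _ 0 N 0 le_rfl F hF
          split_ifs with h
          · rw [norm_col hF'.2.2, mul_sum]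
            simp only [mul_ite, mul_zero]
            rw [← sum_filter]
            refine le_of_eq (sum_congr ?_ fun t _ => mul_comm _ _)
            ext t; simp; omega
          · refine sum_nonneg fun t _ => mul_nonneg (sq_nonneg _) ?_
            split_ifs
            · exact Wt_nonneg _
            · exact le_rfl
      _ = ∑ t ∈ Ico (s + 1 : ℕ) N, Vm p t s ^ 2 * M.pay Wt (s + 1) t 0 N 0 := by
          rw [list_sum_comm]
          refine sum_congr rfl fun t _ => ?_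
          rw [List.sum_map_mul_left]; rfl
      _ ≤ ∑ t ∈ Ico (s + 1 : ℕ) N, Vm p t s ^ 2 * 64 := by
          gcongr with t
          exact M.pay_le (fun y _ => min_le_left _ _) (fun y _ => min_le_right _ _) _ _ _ _ _ _
            le_rfl
      _ ≤ 64 := by
          rw [← sum_mul]; linarith [col_le hp s N]
  · have h1 := Fl_energy hp (hτ.trans hn) (Yst p (extv 0 τ x) τ)
    rw [← Fl_comp hτ hn, hkill, norm_zero] at h1
    have h2 := M.bud_le τ N (hτ.trans hn)
      (fun t => ⟪ov (p t), Fl p τ t (Yst p (extv 0 τ x) τ)⟫ ^ 2 / 250000) (fun F hF h l hl => by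
        have h3 := (hc' F hF).2.2 x (fun k hk => hx k (List.mem_flatMap.2 ⟨F, hF, hk⟩)) τ h l hl
        have hF' := M.mem_blocks _ 0 N 0 le_rfl F hF
        rw [app_seg_eq _ 0 τ τ le_rfl, norm_sum_col hF'.2.2] at h3
        rw [← sum_div, div_le_iff₀' (by norm_num)]
        refine le_trans (le_of_eq (sum_congr rfl fun t ht => ?_)) h3
        rw [inner_Yst _ (h.trans (mem_Ico.1 ht).1)])
    rw [← sum_div, div_le_iff₀' (by norm_num)] at h2
    have h3 : M.g 0 0 N ≤ Fintype.card ι := ell_le_dim hp e N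
    linarith

end Crest.Agent.Pre
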