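import Mathlib

/-!
# Checks (ellipsoidal constraints) for the prefix discrepancy theorem
-/

set_option autoImplicit false

open Finset

namespace Crest.Agent.Pre

variable {n : ℕ} {H : Type} [NormedAddCommGroup H] [InnerProductSpace ℝ H]

/-- The linear combination of the columns `u` with coefficients `x`. -/
noncomputable def app (u : Fin n → H) (x : Fin n → ℝ) : H := ∑ s, x s • u s

/-- A check: columns `u`, a bound `w` for the Hilbert–Schmidt mass, a squared radius `R`. -/
structure Chk (n : ℕ) (H : Type) where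
  u : Fin n → H
  w : ℝ
  R : ℝ

/-- The checked quadratic quantity. -/
noncomputable def Chk.Q (c : Chk n H) (x : Fin n → ℝ) : ℝ := ‖app c.u x‖ ^ 2

/-- The weight of a check. -/
noncomputable def Chk.wt (c : Chk n H) : ℝ := c.w ^ 14 / c.R ^ 16

/-- Admissible checks. -/
structure Chk.Adm (c : Chk n H) : Prop where
  w_pos : 0 < c.w
  w_le : 100 * c.w ≤ c.R
  hs : ∑ s, ‖c.u s‖ ^ 2 ≤ c.w
  op : ∀ x, c.Q x ≤ ∑ s, x s ^ 2

end Crest.Agent.Pre
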