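import Crest.Agent.Pre.Tree

/-!
# The contraction filter attached to a sequence of short vectors
-/

set_option autoImplicit false
set_option linter.unusedSectionVars false

open Finset
open scoped RealInnerProductSpace

namespace Crest.Agent.Pre

variable {E : Type} [NormedAddCommGroup E] [InnerProductSpace ℝ E] [FiniteDimensional ℝ E]

/-- One contraction. -/
noncomputable def Cn (p : E) : E →ₗ[ℝ] E :=
  LinearMap.id - ((innerSL ℝ p).toLinearMap).smulRight p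

lemma Cn_apply (p y : E) : Cn p y = y - ⟪p, y⟫ • p := by simp [Cn]

/-- The defect vector. -/
noncomputable def ov (p : E) : E := √(2 - ‖p‖ ^ 2) • p

lemma Cn_symm (p x y : E) : ⟪Cn p x, y⟫ = ⟪x, Cn p y⟫ := by
  simp only [Cn_apply, inner_sub_left, inner_sub_right, real_inner_smul_left,
    real_inner_smul_right, real_inner_comm p x]
  ring

lemma sq_sqrt_ov {p : E} (hp : ‖p‖ ≤ 1) : √(2 - ‖p‖ ^ 2) ^ 2 = 2 - ‖p‖ ^ 2 :=
  Real.sq_sqrt (by nlinarith [norm_nonneg p])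

lemma norm_Cn_add {p : E} (hp : ‖p‖ ≤ 1) (y : E) (ξ : ℝ) :
    ‖Cn p y + ξ • ov p‖ ^ 2 = ‖y‖ ^ 2 + ξ ^ 2 - (⟪ov p, y⟫ - (1 - ‖p‖ ^ 2) * ξ) ^ 2 := by
  have h := sq_sqrt_ov hp
  have e : Cn p y + ξ • ov p = y + (ξ * √(2 - ‖p‖ ^ 2) - ⟪p, y⟫) • p := by
    rw [Cn_apply, ov, smul_smul, sub_smul]; abel
  rw [e, norm_add_sq_real, norm_smul, mul_pow, Real.norm_eq_abs, sq_abs, real_inner_smul_right,
    ov, real_inner_smul_left, real_inner_comm p y]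
  set β := √(2 - ‖p‖ ^ 2)
  set a := ⟪p, y⟫
  set c := ‖p‖ ^ 2
  linear_combination (ξ ^ 2 * c + a ^ 2) * h

lemma norm_Cn {p : E} (hp : ‖p‖ ≤ 1) (y : E) : ‖Cn p y‖ ^ 2 = ‖y‖ ^ 2 - ⟪ov p, y⟫ ^ 2 := by
  simpa using norm_Cn_add hp y 0

lemma norm_ov {p : E} (hp : ‖p‖ ≤ 1) : ‖ov p‖ ^ 2 ≤ 1 := by
  rw [ov, norm_smul, mul_pow, Real.norm_eq_abs, sq_abs, sq_sqrt_ov hp]
  nlinarith [sq_nonneg (1 - ‖p‖ ^ 2)]

/-- The product of the contractions at the steps in `[s,t)`. -/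
noncomputable def Fl (p : ℕ → E) (s : ℕ) : ℕ → E →ₗ[ℝ] E
  | 0 => LinearMap.id
  | t + 1 => if s ≤ t then Cn (p t) ∘ₗ Fl p s t else LinearMap.id

variable {p : ℕ → E}

lemma Fl_self (s : ℕ) (y : E) : Fl p s s y = y := by
  cases s with
  | zero => rfl
  | succ s => rw [Fl, if_neg (by omega)]; rfl

lemma Fl_succ {s t : ℕ} (h : s ≤ t) (y : E) : Fl p s (t + 1) y = Cn (p t) (Fl p s t y) := by
  rw [Fl, if_pos h]; rfl

lemma Fl_comp {s x t : ℕ} (h1 : s ≤ x) (h2 : x ≤ t) (y : E) :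
    Fl p x t (Fl p s x y) = Fl p s t y := by
  induction t, h2 using Nat.le_induction with
  | base => rw [Fl_self]
  | succ t h ih => rw [Fl_succ h, ih, Fl_succ (h1.trans h)]

lemma Fl_energy (hp : ∀ t, ‖p t‖ ≤ 1) {s b : ℕ} (h : s ≤ b) (y : E) :
    ‖Fl p s b y‖ ^ 2 + ∑ t ∈ Ico s b, ⟪ov (p t), Fl p s t y⟫ ^ 2 = ‖y‖ ^ 2 := by
  induction b, h using Nat.le_induction with
  | base => simp [Fl_self]
  | succ b h ih => rw [Fl_succ h, norm_Cn (hp b), sum_Ico_succ_top h]; linarith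

/-- The output matrix. -/
noncomputable def Vm (p : ℕ → E) (t i : ℕ) : ℝ := ⟪ov (p t), Fl p (i + 1) t (ov (p i))⟫

/-- Mass alive at time `x` dying at step `t`. -/
noncomputable def Rm (p : ℕ → E) (x t : ℕ) : ℝ := ‖LinearMap.adjoint (Fl p x t) (ov (p t))‖ ^ 2

lemma Rm_self (t : ℕ) : Rm p t t = ‖ov (p t)‖ ^ 2 := by
  unfold Rm
  congr 2
  refine ext_inner_right ℝ fun y => ?_
  rw [LinearMap.adjoint_inner_left, Fl_self]

lemma Rm_succ (hp : ∀ t, ‖p t‖ ≤ 1) {x t : ℕ} (h : x < t) :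
    Rm p (x + 1) t = Rm p x t + Vm p t x ^ 2 := by
  have e : LinearMap.adjoint (Fl p x t) (ov (p t)) =
      Cn (p x) (LinearMap.adjoint (Fl p (x + 1) t) (ov (p t))) := by
    refine ext_inner_right ℝ fun y => ?_
    rw [Cn_symm, LinearMap.adjoint_inner_left, LinearMap.adjoint_inner_left,
      ← Fl_comp (Nat.le_succ x) h, Fl_succ le_rfl, Fl_self]
  unfold Rm Vm
  rw [e, norm_Cn (hp x), real_inner_comm, LinearMap.adjoint_inner_left]
  ring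

lemma Rm_sub (hp : ∀ t, ‖p t‖ ≤ 1) {s τ t : ℕ} (h1 : s ≤ τ) (h2 : τ ≤ t) :
    Rm p τ t - Rm p s t = ∑ i ∈ Ico s τ, Vm p t i ^ 2 := by
  induction τ, h1 using Nat.le_induction with
  | base => simp
  | succ τ h ih => rw [sum_Ico_succ_top h, Rm_succ hp h2, ← ih (by omega)]; ring

lemma ell_step (hp : ∀ t, ‖p t‖ ≤ 1) {s b : ℕ} (h : s < b) :
    ∑ t ∈ Ico s b, Rm p s t - ∑ t ∈ Ico (s + 1) b, Rm p (s + 1) t =
      ‖Fl p (s + 1) b (ov (p s))‖ ^ 2 := by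
  have h1 := Fl_energy hp (show s + 1 ≤ b from h) (ov (p s))
  have h2 : ∑ t ∈ Ico (s + 1) b, Rm p (s + 1) t =
      ∑ t ∈ Ico (s + 1) b, Rm p s t + ∑ t ∈ Ico (s + 1) b, Vm p t s ^ 2 := by
    rw [← sum_add_distrib]
    exact sum_congr rfl fun t ht => Rm_succ hp (mem_Ico.1 ht).1
  rw [sum_eq_sum_Ico_succ_bot h, Rm_self, h2]
  unfold Vm
  linarith

lemma ell_sub (hp : ∀ t, ‖p t‖ ≤ 1) {s τ b : ℕ} (h1 : s ≤ τ) (h2 : τ ≤ b) :
    ∑ t ∈ Ico s b, Rm p s t - ∑ t ∈ Ico τ b, Rm p τ t =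
      ∑ i ∈ Ico s τ, ‖Fl p (i + 1) b (ov (p i))‖ ^ 2 := by
  induction τ, h1 using Nat.le_induction with
  | base => simp
  | succ τ h ih => rw [sum_Ico_succ_top h, ← ell_step hp h2, ← ih (by omega)]; ring

/-- The mass structure of the filter. -/
noncomputable def mass (p : ℕ → E) (hp : ∀ t, ‖p t‖ ≤ 1) : Mass where
  R := Rm p
  nonneg := fun _ _ => sq_nonneg _
  mono := fun x x' t h1 h2 => by
    have := Rm_sub hp h1 h2
    have : 0 ≤ ∑ i ∈ Ico x x', Vm p t i ^ 2 := by positivity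
    linarith
  anti := fun s s' b h1 h2 => by
    have := ell_sub hp h1 h2
    have : 0 ≤ ∑ i ∈ Ico s s', ‖Fl p (i + 1) b (ov (p i))‖ ^ 2 := by positivity
    linarith
  prod := fun s τ x t h1 h2 h3 => by
    rw [Rm_sub hp h1 (h2.trans h3), ell_sub hp h1 h2, mul_sum]
    refine sum_le_sum fun i hi => ?_
    have hi' := mem_Ico.1 hi
    unfold Vm Rm
    rw [← Fl_comp (show i + 1 ≤ x by omega) h3, ← LinearMap.adjoint_inner_left, ← mul_pow,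
      sq_le_sq, abs_of_nonneg (show 0 ≤ ‖_‖ * ‖_‖ by positivity)]
    exact abs_real_inner_le_norm _ _

lemma ell_le_dim (hp : ∀ t, ‖p t‖ ≤ 1) {ι : Type} [Fintype ι] (e : OrthonormalBasis ι ℝ E)
    (N : ℕ) : ∑ t ∈ Ico 0 N, Rm p 0 t ≤ Fintype.card ι := by
  have h1 : ∀ t, Rm p 0 t = ∑ j, ⟪ov (p t), Fl p 0 t (e j)⟫ ^ 2 := by
    intro t
    unfold Rm
    rw [← e.sum_sq_norm_inner_left]
    refine sum_congr rfl fun j _ => ?_
    rw [Real.norm_eq_abs, sq_abs, LinearMap.adjoint_inner_left]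
  simp only [h1]
  rw [sum_comm]
  calc _ ≤ ∑ _j : ι, (1 : ℝ) := by
        refine sum_le_sum fun j _ => ?_
        have := Fl_energy hp (Nat.zero_le N) (e j)
        rw [e.orthonormal.1 j] at this
        nlinarith [sq_nonneg ‖Fl p 0 N (e j)‖]
    _ = _ := by simp

lemma col_le (hp : ∀ t, ‖p t‖ ≤ 1) (i N : ℕ) : ∑ t ∈ Ico (i + 1) N, Vm p t i ^ 2 ≤ 1 := by
  by_cases h : i + 1 ≤ N
  · have := Fl_energy hp h (ov (p i))
    have h2 := norm_ov (hp i)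
    unfold Vm
    nlinarith [sq_nonneg ‖Fl p (i + 1) N (ov (p i))‖]
  · rw [Ico_eq_empty (by omega)]; simp

/-- The state of the filter driven by the input `ξ`. -/
noncomputable def Yst (p : ℕ → E) (ξ : ℕ → ℝ) (k : ℕ) : E :=
  ∑ i ∈ range k, ξ i • Fl p (i + 1) k (ov (p i))

lemma Yst_succ (ξ : ℕ → ℝ) (k : ℕ) :
    Yst p ξ (k + 1) = Cn (p k) (Yst p ξ k) + ξ k • ov (p k) := by
  unfold Yst
  rw [sum_range_succ, Fl_self, map_sum]
  congr 1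
  refine sum_congr rfl fun i hi => ?_
  rw [map_smul, Fl_succ (mem_range.1 hi)]

lemma Yst_le (hp : ∀ t, ‖p t‖ ≤ 1) (ξ : ℕ → ℝ) (k : ℕ) :
    ‖Yst p ξ k‖ ^ 2 ≤ ∑ i ∈ range k, ξ i ^ 2 := by
  induction k with
  | zero => simp [Yst]
  | succ k ih =>
    rw [Yst_succ, norm_Cn_add (hp k), sum_range_succ]
    nlinarith [sq_nonneg (⟪ov (p k), Yst p ξ k⟫ - (1 - ‖p k‖ ^ 2) * ξ k)]

lemma inner_Yst (ξ : ℕ → ℝ) {τ t : ℕ} (h : τ ≤ t) :
    ⟪ov (p t), Fl p τ t (Yst p ξ τ)⟫ = ∑ i ∈ range τ, ξ i * Vm p t i := by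
  unfold Yst Vm
  rw [map_sum, inner_sum]
  refine sum_congr rfl fun i hi => ?_
  rw [map_smul, real_inner_smul_right, Fl_comp (mem_range.1 hi) h]

end Crest.Agent.Pre
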