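import Crest.Agent.Pre.Step

/-!
# Choosing signs: the healing theorem
-/

set_option autoImplicit false

open MeasureTheory Finset
open scoped ENNReal

namespace Crest.Agent.Pre

variable {n : ℕ}

/-- `y` is `m` times a point of `K` (no condition on the point if `m = 0`). -/
def SM (K : Set (Fin n → ℝ)) (m : ℝ) (y : Fin n → ℝ) : Prop :=
  ∃ x, (m ≠ 0 → x ∈ K) ∧ y = m • x

lemma SM.add {K : Set (Fin n → ℝ)} (hK : Convex ℝ K) {a b : ℝ} {x y : Fin n → ℝ} (ha : 0 ≤ a)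
    (hb : 0 ≤ b) (hx : SM K a x) (hy : SM K b y) : SM K (a + b) (x + y) := by
  obtain ⟨x, hx, rfl⟩ := hx
  obtain ⟨y, hy, rfl⟩ := hy
  rcases ha.eq_or_lt with rfl | ha'
  · exact ⟨y, by simpa using hy, by simp⟩
  rcases hb.eq_or_lt with rfl | hb'
  · exact ⟨x, by simpa using hx, by simp⟩
  have hab : 0 < a + b := by linarith
  refine ⟨(a / (a + b)) • x + (b / (a + b)) • y, fun _ => hK (hx ha'.ne') (hy hb'.ne')
    (by positivity) (by positivity) (by field_simp), ?_⟩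
  ext i; simp; field_simp

lemma SM.dil {K : Set (Fin n → ℝ)} {v : Fin n → ℝ} {ρ m : ℝ} {y : Fin n → ℝ} (hm : 0 ≤ m)
    (h : SM (dil K v ρ) m y) : ∃ t, |t| ≤ ρ * m ∧ SM K m (y - t • v) := by
  obtain ⟨x, hx, rfl⟩ := h
  rcases hm.eq_or_lt with rfl | hm'
  · exact ⟨0, by simp, 0, by simp, by simp⟩
  obtain ⟨a, ha, hxa⟩ := hx hm'.ne'
  refine ⟨a * m, by rw [abs_mul, abs_of_pos hm']; gcongr, x - a • v, fun _ => hxa, ?_⟩
  ext i; simp; ring

lemma SM.ero {K : Set (Fin n → ℝ)} {v : Fin n → ℝ} {ρ m σ : ℝ} {y : Fin n → ℝ} (hσ : |σ| ≤ ρ)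
    (h : SM (ero K v ρ) m y) : SM K m (y + (m * σ) • v) := by
  obtain ⟨x, hx, rfl⟩ := h
  refine ⟨x + σ • v, fun h => hx h σ hσ, ?_⟩
  ext i; simp; ring

/-- A labelled family of amplitudes supported in symmetric convex sets. -/
structure Fam (n : ℕ) (ι : Type) [Fintype ι] where
  K : ι → Set (Fin n → ℝ)
  f : ι → (Fin n → ℝ) → ℝ≥0∞
  conv : ∀ l, Convex ℝ (K l)
  symm : ∀ l, ∀ x ∈ K l, -x ∈ K l
  meas : ∀ l, Measurable (f l)
  supp : ∀ l x, f l x ≠ 0 → x ∈ K l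
  tot : ∑ l, ∫⁻ x, f l x ^ 2 = 1

namespace Fam

variable {ι : Type} [Fintype ι] (Φ : Fam n ι)

/-- The mass of a label. -/
noncomputable def mass (l : ι) : ℝ := (∫⁻ x, Φ.f l x ^ 2).toReal

/-- Points that are mass-weighted averages of points of the label sets. -/
def Good (z : Fin n → ℝ) : Prop :=
  ∃ y : ι → Fin n → ℝ, (∀ l, SM (Φ.K l) (Φ.mass l) (y l)) ∧ z = ∑ l, y l

/-- The total affinity. -/
noncomputable def aff (u : Fin n → ℝ) : ℝ≥0∞ := ∑ l, aff1 (Φ.f l) u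

lemma mass_ne_top (l : ι) : ∫⁻ x, Φ.f l x ^ 2 ≠ ⊤ := by
  refine ne_top_of_le_ne_top (b := 1) (by simp) ?_
  rw [← Φ.tot]
  exact single_le_sum (f := fun l => ∫⁻ x, Φ.f l x ^ 2) (fun _ _ => zero_le) (mem_univ l)

lemma mass_nonneg (l : ι) : 0 ≤ Φ.mass l := ENNReal.toReal_nonneg

lemma sum_mass : ∑ l, Φ.mass l = 1 := by
  unfold mass
  rw [← ENNReal.toReal_sum fun l _ => Φ.mass_ne_top l, Φ.tot]; simp

lemma good_zero : Φ.Good 0 := by
  refine ⟨fun _ => 0, fun l => ⟨0, fun h => ?_, by simp⟩, by simp⟩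
  have : ∃ x, Φ.f l x ≠ 0 := by
    by_contra hc
    push Not at hc
    exact h (by simp [mass, hc])
  obtain ⟨x, hx⟩ := this
  have h1 := Φ.supp l x hx
  have := Φ.conv l h1 (Φ.symm l x h1) (show (0 : ℝ) ≤ 1 / 2 by norm_num)
    (show (0 : ℝ) ≤ 1 / 2 by norm_num) (by norm_num)
  simpa using this

theorem exists_step (v : Fin n → ℝ) : ∃ Ψ : Fam n (ι × Fin 3),
    (∀ u h, 2⁻¹ * (Φ.aff (u + h • v) * ENNReal.ofReal (1 - 8 * h ^ 2)) + 2⁻¹ * Φ.aff u
      ≤ Ψ.aff u) ∧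
    (ENNReal.ofReal (99 / 100) ≤ Φ.aff ((12 : ℝ) • v) → ∀ z, Ψ.Good z →
      ∃ ε : ℝ, (ε = 1 ∨ ε = -1) ∧ Φ.Good (z + ε • v)) := by
  obtain ⟨r, hr, hrs, hr1, hra⟩ := exists_amp
  have hA : ∀ l, ∫⁻ x, smo r (Φ.f l) v x ^ 2 = 2⁻¹ * ∫⁻ x, Φ.f l x ^ 2 :=
    fun l => smo_mass hr (Φ.meas l) v hr1
  have hB := fun l => split_mass (Φ.meas l) v
  let Ψ : Fam n (ι × Fin 3) :=
    { K := fun p => ![dil (Φ.K p.1) v 1, dil (Φ.K p.1) v 6, ero (Φ.K p.1) v 6] p.2
      f := fun p => ![smo r (Φ.f p.1) v, sup1 (Φ.f p.1) v, inf1 (Φ.f p.1) v] p.2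
      conv := by
        rintro ⟨l, j⟩
        fin_cases j
        exacts [dil_conv (Φ.conv l) _ _, dil_conv (Φ.conv l) _ _, ero_conv (Φ.conv l) _ _]
      symm := by
        rintro ⟨l, j⟩
        fin_cases j
        exacts [dil_symm (Φ.symm l) _ _, dil_symm (Φ.symm l) _ _, ero_symm (Φ.symm l) _ _]
      meas := by
        rintro ⟨l, j⟩
        fin_cases j
        exacts [smo_meas hr (Φ.meas l) v, sup1_meas (Φ.meas l) v, inf1_meas (Φ.meas l) v]
      supp := by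
        rintro ⟨l, j⟩
        fin_cases j
        exacts [smo_supp hrs (Φ.supp l) v, sup1_supp (Φ.supp l) v,
          inf1_supp (Φ.conv l) (Φ.supp l) v]
      tot := by
        rw [Fintype.sum_prod_type, ← Φ.tot]
        refine sum_congr rfl fun l _ => ?_
        simp only [Fin.sum_univ_three, Matrix.cons_val_zero, Matrix.cons_val_one,
          Matrix.cons_val]
        rw [add_assoc, hA, hB, ← add_mul, ENNReal.inv_two_add_inv_two, one_mul] }
  refine ⟨Ψ, fun u h => ?_, fun h99 z hz => ?_⟩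
  · unfold aff
    rw [Fintype.sum_prod_type, sum_mul, mul_sum, mul_sum, ← sum_add_distrib]
    refine sum_le_sum fun l _ => ?_
    simp only [Ψ, Fin.sum_univ_three, Matrix.cons_val_zero, Matrix.cons_val_one,
      Matrix.cons_val]
    rw [add_assoc]
    refine add_le_add (le_trans ?_ (smo_aff hr (Φ.meas l) v u h)) (split_aff (Φ.meas l) v u)
    gcongr
    exact hra h
  · obtain ⟨y, hy, rfl⟩ := hz
    have hmA : ∀ l, Ψ.mass (l, 0) = Φ.mass l / 2 := by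
      intro l
      simp only [Ψ, mass, Matrix.cons_val_zero]
      rw [hA, ENNReal.toReal_mul]; simp; ring
    have hmB : ∀ l, Ψ.mass (l, 1) + Ψ.mass (l, 2) = Φ.mass l / 2 := by
      intro l
      unfold mass
      rw [← ENNReal.toReal_add (Ψ.mass_ne_top _) (Ψ.mass_ne_top _)]
      simp only [Ψ, Matrix.cons_val_zero, Matrix.cons_val_one, Matrix.cons_val]
      rw [hB, ENNReal.toReal_mul]; simp; ring
    set M0 := ∑ l, Ψ.mass (l, 1) with hM0
    set M1 := ∑ l, Ψ.mass (l, 2) with hM1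
    have hM : M0 + M1 = 1 / 2 := by
      rw [hM0, hM1, ← sum_add_distrib]
      simp only [hmB]
      rw [← sum_div, Φ.sum_mass]
    have hlow : 99 / 10 ≤ 16 * M0 + 25 * M1 := by
      have h1 : 10 * Φ.aff ((12 : ℝ) • v) ≤
          ∑ l, (16 * (∫⁻ x, Ψ.f (l, 1) x ^ 2) + 25 * ∫⁻ x, Ψ.f (l, 2) x ^ 2) := by
        unfold aff
        rw [mul_sum]
        exact sum_le_sum fun l _ => split_low (Φ.meas l) v
      have h2 : 10 * ENNReal.ofReal (99 / 100) ≤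
          ∑ l, (16 * (∫⁻ x, Ψ.f (l, 1) x ^ 2) + 25 * ∫⁻ x, Ψ.f (l, 2) x ^ 2) :=
        le_trans (by gcongr) h1
      have hfin : ∀ l, 16 * (∫⁻ x, Ψ.f (l, 1) x ^ 2) + 25 * ∫⁻ x, Ψ.f (l, 2) x ^ 2 ≠ ⊤ :=
        fun l => ENNReal.add_ne_top.2 ⟨ENNReal.mul_ne_top (by simp) (Ψ.mass_ne_top _),
          ENNReal.mul_ne_top (by simp) (Ψ.mass_ne_top _)⟩
      have h3 := ENNReal.toReal_mono (ENNReal.sum_ne_top.2 fun l _ => hfin l) h2
      rw [ENNReal.toReal_sum fun l _ => hfin l, ENNReal.toReal_mul,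
        ENNReal.toReal_ofReal (by norm_num)] at h3
      have h4 : ∀ l, (16 * (∫⁻ x, Ψ.f (l, 1) x ^ 2) + 25 * ∫⁻ x, Ψ.f (l, 2) x ^ 2).toReal =
          16 * Ψ.mass (l, 1) + 25 * Ψ.mass (l, 2) := by
        intro l
        rw [ENNReal.toReal_add (ENNReal.mul_ne_top (by simp) (Ψ.mass_ne_top _))
          (ENNReal.mul_ne_top (by simp) (Ψ.mass_ne_top _)), ENNReal.toReal_mul,
          ENNReal.toReal_mul]
        simp [mass]
      simp only [h4, sum_add_distrib, ← mul_sum] at h3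
      norm_num at h3
      linarith
    have hM1pos : 5 / 24 ≤ M1 := by linarith
    have h0 : ∀ l, ∃ t, |t| ≤ 1 * Ψ.mass (l, 0) ∧
        SM (Φ.K l) (Ψ.mass (l, 0)) (y (l, 0) - t • v) :=
      fun l => SM.dil (Ψ.mass_nonneg _) (hy (l, 0))
    have h1 : ∀ l, ∃ t, |t| ≤ 6 * Ψ.mass (l, 1) ∧
        SM (Φ.K l) (Ψ.mass (l, 1)) (y (l, 1) - t • v) :=
      fun l => SM.dil (Ψ.mass_nonneg _) (hy (l, 1))
    choose a ha ha' using h0
    choose b hb hb' using h1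
    set T := ∑ l, (a l + b l) with hT
    have hTle : |T| ≤ 1 / 2 + 6 * M0 := by
      refine (abs_sum_le_sum_abs _ _).trans ?_
      have : ∑ l, (Φ.mass l / 2 + 6 * Ψ.mass (l, 1)) = 1 / 2 + 6 * M0 := by
        rw [sum_add_distrib, ← sum_div, Φ.sum_mass, ← mul_sum]
      rw [← this]
      refine sum_le_sum fun l _ => (abs_add_le _ _).trans ?_
      have := ha l
      rw [hmA] at this
      linarith [hb l]
    obtain ⟨ε, hε, hTε⟩ : ∃ ε : ℝ, (ε = 1 ∨ ε = -1) ∧ |T + ε| ≤ 6 * M1 := by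
      obtain ⟨h1, h2⟩ := abs_le.1 hTle
      rcases le_total T 0 with h | h
      · exact ⟨1, Or.inl rfl, abs_le.2 ⟨by linarith, by linarith⟩⟩
      · exact ⟨-1, Or.inr rfl, abs_le.2 ⟨by linarith, by linarith⟩⟩
    have hσ : |(T + ε) / M1| ≤ 6 := by
      rw [abs_div, abs_of_pos (show 0 < M1 by linarith), div_le_iff₀ (by linarith)]
      exact hTε
    refine ⟨ε, hε, fun l => (y (l, 0) - a l • v) + ((y (l, 1) - b l • v) +
      (y (l, 2) + (Ψ.mass (l, 2) * ((T + ε) / M1)) • v)), fun l => ?_, ?_⟩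
    · have := SM.add (Φ.conv l) (Ψ.mass_nonneg _)
        (add_nonneg (Ψ.mass_nonneg _) (Ψ.mass_nonneg _)) (ha' l)
        (SM.add (Φ.conv l) (Ψ.mass_nonneg _) (Ψ.mass_nonneg _) (hb' l) (SM.ero hσ (hy (l, 2))))
      rwa [hmA, hmB, add_halves] at this
    · have e : ∀ l, (y (l, 0) - a l • v) + ((y (l, 1) - b l • v) +
          (y (l, 2) + (Ψ.mass (l, 2) * ((T + ε) / M1)) • v)) = (y (l, 0) + y (l, 1) + y (l, 2)) +
          (Ψ.mass (l, 2) * ((T + ε) / M1) - (a l + b l)) • v := by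
        intro l; ext i; simp; ring
      simp only [e]
      rw [sum_add_distrib, ← sum_smul, sum_sub_distrib, ← sum_mul, Fintype.sum_prod_type]
      simp only [Fin.sum_univ_three]
      congr 2
      rw [← hM1, ← hT]; field_simp; ring

end Fam

lemma ofReal_one_sub_mul (a b : ℝ) (ha : 0 ≤ a) (hb : 0 ≤ b) :
    ENNReal.ofReal (1 - (a + b)) ≤ ENNReal.ofReal (1 - a) * ENNReal.ofReal (1 - b) := by
  by_cases h : 1 - a ≤ 0
  · rw [ENNReal.ofReal_of_nonpos (by linarith)]; exact zero_le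
  rw [← ENNReal.ofReal_mul (by linarith)]
  exact ENNReal.ofReal_le_ofReal (by nlinarith [mul_nonneg ha hb])

lemma ofReal_avg (a b : ℝ) :
    ENNReal.ofReal ((a + b) / 2) ≤ 2⁻¹ * ENNReal.ofReal a + 2⁻¹ * ENNReal.ofReal b := by
  rw [← mul_add, div_eq_inv_mul, ENNReal.ofReal_mul (by norm_num),
    ENNReal.ofReal_inv_of_pos (by norm_num)]
  simp only [ENNReal.ofReal_ofNat]
  gcongr
  exact ENNReal.ofReal_add_le

theorem heal_aux (q : (Fin n → ℝ) → ℝ) (q0 : ∀ x, 0 ≤ q x)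
    (hpar : ∀ x y, q (x + y) + q (x - y) ≤ 2 * q x + 2 * q y)
    (hhom : ∀ (c : ℝ) x, q (c • x) = c ^ 2 * q x) (b : ℕ → Fin n → ℝ) (m : ℕ)
    (hb : ∀ t < m, ∃ γ : ℕ → ℝ, q (b t + ∑ i ∈ Ico (t + 1) m, γ i • b i) +
      17 * ∑ i ∈ Ico (t + 1) m, γ i ^ 2 ≤ 1 / 14400) :
    ∀ s ≤ m, ∀ (ι : Type) [Fintype ι] (Φ : Fam n ι),
      (∀ u (g : ℕ → ℝ), ENNReal.ofReal (1 - (q (u + ∑ i ∈ Ico s m, g i • b i) +
        17 * ∑ i ∈ Ico s m, g i ^ 2)) ≤ Φ.aff u) →
      ∃ ε : ℕ → ℝ, (∀ i, ε i = 1 ∨ ε i = -1) ∧ Φ.Good (∑ i ∈ range s, ε i • b i) := by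
  intro s
  induction s with
  | zero => intro _ ι _ Φ _; exact ⟨fun _ => 1, fun _ => Or.inl rfl, by simpa using Φ.good_zero⟩
  | succ s ih =>
    intro hs ι _ Φ hΦ
    obtain ⟨γ, hγ⟩ := hb s hs
    obtain ⟨Ψ, hΨ, hback⟩ := Φ.exists_step (b s)
    set W := b s + ∑ i ∈ Ico (s + 1) m, γ i • b i with hW
    have h99 : ENNReal.ofReal (99 / 100) ≤ Φ.aff ((12 : ℝ) • b s) := by
      refine le_trans (ENNReal.ofReal_le_ofReal ?_) (hΦ _ fun i => 12 * γ i)
      have e : (12 : ℝ) • b s + ∑ i ∈ Ico (s + 1) m, (12 * γ i) • b i = (12 : ℝ) • W := by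
        rw [hW, smul_add, smul_sum]; simp only [mul_smul]
      have e2 : ∑ i ∈ Ico (s + 1) m, (12 * γ i) ^ 2 = 144 * ∑ i ∈ Ico (s + 1) m, γ i ^ 2 := by
        rw [mul_sum]; exact sum_congr rfl fun i _ => by ring
      rw [e, e2, hhom]
      linarith
    obtain ⟨ε, hε, hG⟩ := ih (by omega) _ Ψ (fun u g => by
      refine le_trans ?_ (hΨ u (2 * g s))
      rw [sum_eq_sum_Ico_succ_bot hs, sum_eq_sum_Ico_succ_bot hs]
      set Y := u + (g s • b s + ∑ i ∈ Ico (s + 1) m, g i • b i) with hY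
      have h1 := hΦ (u + (2 * g s) • b s) fun i => g i + g s * γ i
      have h2 := hΦ u fun i => g i - g s * γ i
      have e1 : u + (2 * g s) • b s + ∑ i ∈ Ico (s + 1) m, (g i + g s * γ i) • b i =
          Y + g s • W := by
        simp only [hY, hW, add_smul, sum_add_distrib, smul_add, smul_sum, mul_smul, two_smul]
        abel
      have e2 : u + ∑ i ∈ Ico (s + 1) m, (g i - g s * γ i) • b i = Y - g s • W := by
        simp only [hY, hW, sub_smul, sum_sub_distrib, smul_add, smul_sum, mul_smul]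
        abel
      rw [e1] at h1
      rw [e2] at h2
      have e3 : ∑ i ∈ Ico (s + 1) m, (g i + g s * γ i) ^ 2 +
          ∑ i ∈ Ico (s + 1) m, (g i - g s * γ i) ^ 2 =
          2 * ∑ i ∈ Ico (s + 1) m, g i ^ 2 + 2 * g s ^ 2 * ∑ i ∈ Ico (s + 1) m, γ i ^ 2 := by
        rw [mul_sum, mul_sum, ← sum_add_distrib, ← sum_add_distrib]
        exact sum_congr rfl fun i _ => by ring
      have hp := hpar Y (g s • W)
      rw [hhom] at hp
      set A := q (Y + g s • W) + 17 * ∑ i ∈ Ico (s + 1) m, (g i + g s * γ i) ^ 2 with hA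
      set B := q (Y - g s • W) + 17 * ∑ i ∈ Ico (s + 1) m, (g i - g s * γ i) ^ 2 with hB
      have hA0 : 0 ≤ A := add_nonneg (q0 _) (by positivity)
      calc _ ≤ ENNReal.ofReal (((1 - (A + 8 * (2 * g s) ^ 2)) + (1 - B)) / 2) := by
            refine ENNReal.ofReal_le_ofReal ?_
            have := mul_le_mul_of_nonneg_left hγ (sq_nonneg (g s))
            nlinarith [sq_nonneg (g s)]
        _ ≤ _ := ofReal_avg _ _
        _ ≤ _ := by
            gcongr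
            refine (ofReal_one_sub_mul _ _ hA0 (by positivity)).trans ?_
            gcongr)
    obtain ⟨e, he, hG'⟩ := hback h99 _ hG
    refine ⟨Function.update ε s e, fun i => ?_, ?_⟩
    · by_cases hi : i = s
      · subst hi; simpa using he
      · simpa [Function.update_of_ne hi] using hε i
    · rw [sum_range_succ, Function.update_self]
      convert hG' using 2
      refine sum_congr rfl fun i hi => ?_
      rw [Function.update_of_ne (by simp at hi; omega)]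

/-- The healing theorem. -/
theorem heal (K : Set (Fin n → ℝ)) (hK : Convex ℝ K) (hS : ∀ x ∈ K, -x ∈ K)
    (f : (Fin n → ℝ) → ℝ≥0∞) (hf : Measurable f) (hs : ∀ x, f x ≠ 0 → x ∈ K)
    (h1 : ∫⁻ x, f x ^ 2 = 1)
    (q : (Fin n → ℝ) → ℝ) (q0 : ∀ x, 0 ≤ q x)
    (hpar : ∀ x y, q (x + y) + q (x - y) ≤ 2 * q x + 2 * q y)
    (hhom : ∀ (c : ℝ) x, q (c • x) = c ^ 2 * q x)
    (hq : ∀ u, ENNReal.ofReal (1 - q u) ≤ ∫⁻ x, f x * f (x + u))
    (b : ℕ → Fin n → ℝ) (m : ℕ)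
    (hb : ∀ t < m, ∃ γ : ℕ → ℝ, q (b t + ∑ i ∈ Ico (t + 1) m, γ i • b i) +
      17 * ∑ i ∈ Ico (t + 1) m, γ i ^ 2 ≤ 1 / 14400) :
    ∃ ε : ℕ → ℝ, (∀ i, ε i = 1 ∨ ε i = -1) ∧ ∑ i ∈ range m, ε i • b i ∈ K := by
  let Φ : Fam n Unit :=
    { K := fun _ => K, f := fun _ => f, conv := fun _ => hK, symm := fun _ => hS,
      meas := fun _ => hf, supp := fun _ => hs, tot := by simpa using h1 }
  obtain ⟨ε, hε, y, hy, hz⟩ := heal_aux q q0 hpar hhom b m hb m le_rfl Unit Φ (fun u g => by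
    simpa [Fam.aff, aff1, Φ] using hq u)
  refine ⟨ε, hε, ?_⟩
  obtain ⟨x, hx, hx'⟩ := hy ()
  have hm : Φ.mass () = 1 := by simpa using Φ.sum_mass
  rw [hz]
  simp only [univ_unique, sum_singleton]
  rw [show (default : Unit) = () from rfl, hx', hm, one_smul]
  exact hx (by rw [hm]; exact one_ne_zero)

end Crest.Agent.Pre
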