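import Crest.Agent.Pre.InitGauss

/-!
# The initial density for the prefix discrepancy theorem
-/

set_option autoImplicit false

open MeasureTheory Finset
open scoped ENNReal

namespace Crest.Agent.Pre

/-- The cut-off profile. -/
noncomputable def iniProf (y : ℝ) : ℝ := max 0 (1 - (max 0 (2 * y - 1)) ^ 2)

lemma iniProf_nonneg (y : ℝ) : 0 ≤ iniProf y := le_max_left _ _

lemma iniProf_le_one (y : ℝ) : iniProf y ≤ 1 :=
  max_le zero_le_one (by nlinarith [sq_nonneg (max 0 (2 * y - 1))])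

lemma iniProf_eq_one {y : ℝ} (hy : y ≤ 1 / 2) : iniProf y = 1 := by
  rw [iniProf, max_eq_left (by linarith : 2 * y - 1 ≤ 0)]
  norm_num

lemma iniProf_eq_zero {y : ℝ} (hy : 1 ≤ y) : iniProf y = 0 := by
  rw [iniProf, max_eq_right (by linarith : 0 ≤ 2 * y - 1)]
  exact max_eq_left (by nlinarith)

lemma continuous_iniProf : Continuous iniProf := by
  unfold iniProf; fun_prop

lemma iniProf_mid {a b m : ℝ} (h : m ≤ (a + b) / 2) : iniProf a * iniProf b ≤ iniProf m ^ 2 := by
  set p := max 0 (2 * a - 1) with hp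
  set q := max 0 (2 * b - 1) with hq
  set r := max 0 (2 * m - 1) with hr
  have hp0 : 0 ≤ p := le_max_left _ _
  have hq0 : 0 ≤ q := le_max_left _ _
  have hr0 : 0 ≤ r := le_max_left _ _
  have hp1 : 2 * a - 1 ≤ p := le_max_right _ _
  have hq1 : 2 * b - 1 ≤ q := le_max_right _ _
  have hr1 : r ≤ (p + q) / 2 := max_le (by linarith) (by linarith)
  have hm : 1 - r ^ 2 ≤ iniProf m := le_max_right _ _
  rcases le_total (1 - p ^ 2) 0 with h1 | h1
  · rw [show iniProf a = 0 from max_eq_left h1, zero_mul]; exact sq_nonneg _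
  rcases le_total (1 - q ^ 2) 0 with h2 | h2
  · rw [show iniProf b = 0 from max_eq_left h2, mul_zero]; exact sq_nonneg _
  rw [show iniProf a = 1 - p ^ 2 from max_eq_right h1, show iniProf b = 1 - q ^ 2 from max_eq_right h2]
  have h3 : r ^ 2 ≤ ((p + q) / 2) ^ 2 := pow_le_pow_left₀ hr0 hr1 2
  have h4 : ((1 - p ^ 2) + (1 - q ^ 2)) / 2 ≤ iniProf m := by nlinarith [sq_nonneg (p - q)]
  have h5 : (((1 - p ^ 2) + (1 - q ^ 2)) / 2) ^ 2 ≤ iniProf m ^ 2 :=
    pow_le_pow_left₀ (by linarith) h4 2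
  nlinarith [sq_nonneg (p ^ 2 - q ^ 2)]

lemma iniProf_shift (a e : ℝ) : 1 - (max 0 (2 * a - 1) + 2 * e) ^ 2 ≤ iniProf (a + e) := by
  refine le_trans ?_ (le_max_right _ _)
  have hp1 : 2 * a - 1 ≤ max 0 (2 * a - 1) := le_max_right _ _
  rcases le_total (2 * (a + e) - 1) 0 with h | h
  · rw [max_eq_left h]; nlinarith [sq_nonneg (max 0 (2 * a - 1) + 2 * e)]
  · rw [max_eq_right h]
    have : (2 * (a + e) - 1) ^ 2 ≤ (max 0 (2 * a - 1) + 2 * e) ^ 2 :=
      pow_le_pow_left₀ h (by linarith) 2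
    linarith

lemma iniProf_core {a B D : ℝ} (_ha : 0 ≤ a) (hB : 0 ≤ B) (hB1 : B ≤ 1 / 50)
    (hD : D ^ 2 ≤ 4 * a * B) :
    iniProf a ^ 2 ≤ iniProf (a + (B - D)) * iniProf (a + (B + D)) + 144 * B := by
  have hP1 := iniProf_nonneg (a + (B - D))
  have hP2 := iniProf_nonneg (a + (B + D))
  rcases le_total 1 a with h1 | h1
  · rw [iniProf_eq_zero h1]; nlinarith [mul_nonneg hP1 hP2]
  have hs1 := iniProf_shift a (B - D)
  have hs2 := iniProf_shift a (B + D)
  set p := max 0 (2 * a - 1) with hp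
  have hp0 : 0 ≤ p := le_max_left _ _
  have hp1 : p ≤ 1 := max_le zero_le_one (by linarith)
  have hφ0 : 0 ≤ 1 - p ^ 2 := by nlinarith
  rw [show iniProf a = 1 - p ^ 2 from max_eq_right hφ0]
  set φ := 1 - p ^ 2 with hφ
  have hφ1 : φ ≤ 1 := by nlinarith
  have hD4 : D ^ 2 ≤ 4 * B := by nlinarith
  have hpB : p * B ≤ B := by nlinarith
  have hBB : B ^ 2 ≤ B / 50 := by nlinarith
  set L := 4 * p * D with hL
  have hL2 : L ^ 2 ≤ 64 * B := by
    have : p ^ 2 * D ^ 2 ≤ 1 * D ^ 2 := mul_le_mul_of_nonneg_right (by nlinarith) (sq_nonneg _)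
    rw [hL]; nlinarith
  have t1 : φ - 40 * B + L ≤ iniProf (a + (B - D)) := by
    refine le_trans ?_ hs1
    nlinarith [sq_nonneg (B + D)]
  have t2 : φ - 40 * B - L ≤ iniProf (a + (B + D)) := by
    refine le_trans ?_ hs2
    nlinarith [sq_nonneg (B - D)]
  have hprod := mul_nonneg hP1 hP2
  rcases le_total 0 (φ - 40 * B + L) with c1 | c1
  · rcases le_total 0 (φ - 40 * B - L) with c2 | c2
    · have := mul_le_mul t1 t2 c2 hP1
      nlinarith [mul_nonneg hB (sub_nonneg.2 hφ1), sq_nonneg B]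
    · nlinarith [mul_nonneg hφ0 (neg_nonneg.2 c2), sq_nonneg (φ - L),
        mul_nonneg hB (sub_nonneg.2 hφ1)]
  · nlinarith [mul_nonneg hφ0 (neg_nonneg.2 c1), sq_nonneg (φ + L),
      mul_nonneg hB (sub_nonneg.2 hφ1)]

lemma iniProf_core' {a B D : ℝ} (ha : 0 ≤ a) (ha4 : a < 1 / 4) (_hB : 0 ≤ B) (hB1 : B ≤ 1 / 50)
    (hD : D ^ 2 ≤ 4 * a * B) :
    iniProf a ^ 2 ≤ iniProf (a + (B - D)) * iniProf (a + (B + D)) := by
  have hD2 : D ^ 2 ≤ (1 / 5) ^ 2 := by nlinarith
  obtain ⟨h1, h2⟩ := abs_le.1 (abs_le_of_sq_le_sq' hD2 (by norm_num) |> abs_le.2)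
  rw [iniProf_eq_one (by linarith), iniProf_eq_one (by linarith), iniProf_eq_one (by linarith)]
  norm_num

lemma ini_prod_le_prod_add {J : Type} [DecidableEq J] (s : Finset J) (b c d : J → ℝ)
    (hb : ∀ j, 0 ≤ b j) (hbc : ∀ j, b j ≤ c j) (hd : ∀ j, 0 ≤ d j) (hcd : ∀ j, c j ≤ b j + d j) :
    ∏ j ∈ s, c j ≤ ∏ j ∈ s, b j + ∑ j ∈ s, d j * ∏ i ∈ s.erase j, c i := by
  induction s using Finset.induction_on with
  | empty => simp
  | insert a s ha ih =>
    have hc : ∀ j, 0 ≤ c j := fun j => (hb j).trans (hbc j)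
    rw [Finset.prod_insert ha, Finset.prod_insert ha, Finset.sum_insert ha,
      Finset.erase_insert ha]
    have h1 : ∑ j ∈ s, d j * ∏ i ∈ (insert a s).erase j, c i =
        c a * ∑ j ∈ s, d j * ∏ i ∈ s.erase j, c i := by
      rw [Finset.mul_sum]
      refine Finset.sum_congr rfl fun j hj => ?_
      have hja : a ≠ j := fun h => ha (h ▸ hj)
      rw [Finset.erase_insert_of_ne hja, Finset.prod_insert (fun h => ha (mem_of_mem_erase h))]
      ring
    rw [h1]
    have hS : 0 ≤ ∑ j ∈ s, d j * ∏ i ∈ s.erase j, c i :=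
      Finset.sum_nonneg fun j _ => mul_nonneg (hd j) (Finset.prod_nonneg fun i _ => hc i)
    have hP : 0 ≤ ∏ j ∈ s, c j := Finset.prod_nonneg fun i _ => hc i
    have h2 := mul_le_mul_of_nonneg_right (hcd a) hP
    have h3 := mul_le_mul_of_nonneg_left ih (hb a)
    have h4 := mul_le_mul_of_nonneg_right (hbc a) hS
    nlinarith

variable {n : ℕ} {H : Type} [NormedAddCommGroup H] [InnerProductSpace ℝ H]

lemma ini_app_add (u : Fin n → H) (x y : Fin n → ℝ) : app u (x + y) = app u x + app u y := by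
  simp [app, add_smul, Finset.sum_add_distrib]

lemma ini_app_sub (u : Fin n → H) (x y : Fin n → ℝ) : app u (x - y) = app u x - app u y := by
  simp [app, sub_smul, Finset.sum_sub_distrib]

lemma ini_app_neg (u : Fin n → H) (x : Fin n → ℝ) : app u (-x) = -app u x := by
  simp [app, Finset.sum_neg_distrib]

lemma ini_app_smul (u : Fin n → H) (a : ℝ) (x : Fin n → ℝ) : app u (a • x) = a • app u x := by
  simp [app, Finset.smul_sum, mul_smul]

lemma Chk.ini_Q_nonneg' (c : Chk n H) (x : Fin n → ℝ) : 0 ≤ c.Q x := sq_nonneg _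

lemma Chk.ini_continuous_Q (c : Chk n H) : Continuous c.Q := by
  unfold Chk.Q app; fun_prop

lemma Chk.Adm.ini_R_pos' {c : Chk n H} (hc : c.Adm) : 0 < c.R := by
  linarith [hc.w_pos, hc.w_le]

lemma Chk.Adm.ini_Q_le_w {c : Chk n H} (hc : c.Adm) (x : Fin n → ℝ) :
    c.Q x ≤ c.w * ∑ s, x s ^ 2 := by
  have h1 : ‖app c.u x‖ ≤ ∑ s, ‖c.u s‖ * |x s| := by
    refine (norm_sum_le _ _).trans (le_of_eq (Finset.sum_congr rfl fun s _ => ?_))
    rw [norm_smul, Real.norm_eq_abs, mul_comm]
  have h2 := Finset.sum_mul_sq_le_sq_mul_sq Finset.univ (fun s => ‖c.u s‖) (fun s => |x s|)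
  simp only [sq_abs] at h2
  calc c.Q x ≤ (∑ s, ‖c.u s‖ * |x s|) ^ 2 := pow_le_pow_left₀ (norm_nonneg _) h1 2
    _ ≤ _ := h2
    _ ≤ _ := mul_le_mul_of_nonneg_right hc.hs (Finset.sum_nonneg fun s _ => sq_nonneg _)

/-- The cut-off of a check. -/
noncomputable def Chk.iniPsi (c : Chk n H) (x : Fin n → ℝ) : ℝ := iniProf (c.Q x / c.R)

lemma Chk.ini_continuous_psi (c : Chk n H) : Continuous c.iniPsi :=
  continuous_iniProf.comp (c.ini_continuous_Q.div_const _)

lemma Chk.ini_psi_neg (c : Chk n H) (x : Fin n → ℝ) : c.iniPsi (-x) = c.iniPsi x := by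
  simp [Chk.iniPsi, Chk.Q, ini_app_neg]

lemma Chk.Adm.ini_psi_mid {c : Chk n H} (hc : c.Adm) (x y : Fin n → ℝ) :
    c.iniPsi x * c.iniPsi y ≤ c.iniPsi ((1 / 2 : ℝ) • x + (1 / 2 : ℝ) • y) ^ 2 := by
  apply iniProf_mid
  have hR := hc.ini_R_pos'
  rw [← add_div, div_right_comm]
  apply div_le_div_of_nonneg_right _ hR.le
  simp only [Chk.Q, ini_app_add, ini_app_smul, ← smul_add, norm_smul]
  have h1 := norm_add_le (app c.u x) (app c.u y)
  have h2 : ‖app c.u x + app c.u y‖ ^ 2 ≤ (‖app c.u x‖ + ‖app c.u y‖) ^ 2 :=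
    pow_le_pow_left₀ (norm_nonneg _) h1 2
  rw [show ‖(1 / 2 : ℝ)‖ = 1 / 2 by norm_num]
  nlinarith [sq_nonneg (‖app c.u x‖ - ‖app c.u y‖)]

lemma Chk.Adm.ini_psi_core {c : Chk n H} (hc : c.Adm) (x h : Fin n → ℝ) (hh : c.Q h ≤ c.R / 50) :
    c.iniPsi x ^ 2 ≤ c.iniPsi (x - h) * c.iniPsi (x + h) +
      if c.R / 4 ≤ c.Q x then 144 * (c.Q h / c.R) else 0 := by
  have hR := hc.ini_R_pos'
  set D := 2 * inner ℝ (app c.u x) (app c.u h) / c.R with hD
  have e1 : c.Q (x - h) / c.R = c.Q x / c.R + (c.Q h / c.R - D) := by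
    simp only [Chk.Q, ini_app_sub, norm_sub_sq_real, hD]; ring
  have e2 : c.Q (x + h) / c.R = c.Q x / c.R + (c.Q h / c.R + D) := by
    simp only [Chk.Q, ini_app_add, norm_add_sq_real, hD]; ring
  have hD2 : D ^ 2 ≤ 4 * (c.Q x / c.R) * (c.Q h / c.R) := by
    have h1 := real_inner_mul_inner_self_le (app c.u x) (app c.u h)
    rw [real_inner_self_eq_norm_sq, real_inner_self_eq_norm_sq] at h1
    have : 4 * (c.Q x / c.R) * (c.Q h / c.R) = 4 * (c.Q x * c.Q h) / c.R ^ 2 := by ring
    rw [this, hD, div_pow]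
    apply div_le_div_of_nonneg_right _ (sq_nonneg _)
    simp only [Chk.Q]
    nlinarith
  have ha := div_nonneg (c.ini_Q_nonneg' x) hR.le
  have hB := div_nonneg (c.ini_Q_nonneg' h) hR.le
  have hB1 : c.Q h / c.R ≤ 1 / 50 := by rw [div_le_iff₀ hR]; linarith
  simp only [Chk.iniPsi, e1, e2]
  split_ifs with h4
  · exact iniProf_core ha hB hB1 hD2
  · rw [add_zero]
    refine iniProf_core' ha ?_ hB hB1 hD2
    rw [div_lt_iff₀ hR]; linarith

/-- The tail constant. -/
noncomputable def iniTailK : ℝ := (Nat.factorial 15 : ℝ) * (400 / 23) ^ 15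

lemma iniTailK_nonneg : 0 ≤ iniTailK := by unfold iniTailK; positivity

/-- Tail bound for a check under an even log-concave weight. -/
lemma ini_tail (F : (Fin n → ℝ) → ℝ) (hFm : Measurable F) (hF0 : ∀ x, 0 ≤ F x)
    (hFe : ∀ x, F (-x) = F x)
    (hFl : ∀ x y, F x * F y ≤ F ((1 / 2 : ℝ) • x + (1 / 2 : ℝ) • y) ^ 2)
    (c : Chk n H) (hc : c.Adm) :
    ∃ p : ℝ, 0 ≤ p ∧ p ≤ 1 / 2 ∧ p ≤ iniTailK * (c.w ^ 14 / c.R ^ 15) ∧
      ∫⁻ x, (if c.R / 4 ≤ c.Q x then ENNReal.ofReal (iniGw x * F x) else 0) ≤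
        ENNReal.ofReal p * ∫⁻ x, ENNReal.ofReal (iniGw x * F x) := by
  obtain ⟨U, μ, hμ0, hμ1, hμw, hQ, hU⟩ := ini_diag c hc
  have hw := hc.w_pos
  have hR := hc.ini_R_pos'
  have hwR := hc.w_le
  set o := min 1 c.w with ho
  have ho0 : 0 < o := lt_min one_pos hw
  have ho1 : o ≤ 1 := min_le_left _ _
  have how : o ≤ c.w := min_le_right _ _
  have hμo : ∀ i, μ i ≤ o := fun i => le_min (hμ1 i)
    ((Finset.single_le_sum (fun k _ => hμ0 k) (Finset.mem_univ i)).trans hμw)
  have hE := ini_expmoment (fun x => ENNReal.ofReal (iniGw x * F x))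
    (ini_continuous_gw.measurable.mul hFm).ennreal_ofReal (ini_subgauss F hFm hF0 hFe hFl) U hU
    (fun i => μ i / (4 * o)) (fun i => div_nonneg (hμ0 i) (by positivity))
    (fun i => by rw [div_le_iff₀ (by positivity)]; linarith [hμo i])
  have hQ' : ∀ x : Fin n → ℝ, ∑ i, μ i / (4 * o) * (∑ s, U s i * x s) ^ 2 = c.Q x / (4 * o) := by
    intro x
    rw [hQ, Finset.sum_div]
    exact Finset.sum_congr rfl fun i _ => by ring
  simp only [hQ'] at hE
  rw [← Finset.sum_div] at hE
  set y := 23 / 400 * (c.R / o) with hy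
  have hRo : 100 ≤ c.R / o := by rw [le_div_iff₀ ho0]; linarith
  have hy0 : 0 < y := by rw [hy]; linarith
  refine ⟨Real.exp (-y), (Real.exp_pos _).le, ?_, ?_, ?_⟩
  · rw [Real.exp_neg, inv_le_comm₀ (Real.exp_pos _) (by norm_num)]
    have := Real.add_one_le_exp y
    norm_num
    linarith
  · have h1 := Real.pow_div_factorial_le_exp y hy0.le 15
    have h2 : Real.exp (-y) ≤ (Nat.factorial 15 : ℝ) / y ^ 15 := by
      rw [Real.exp_neg, inv_le_comm₀ (Real.exp_pos _) (by positivity), inv_div]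
      exact h1
    refine h2.trans ?_
    have h3 : (Nat.factorial 15 : ℝ) / y ^ 15 = iniTailK * (o ^ 15 / c.R ^ 15) := by
      rw [hy, iniTailK]; field_simp
    rw [h3]
    refine mul_le_mul_of_nonneg_left (div_le_div_of_nonneg_right ?_ (by positivity)) iniTailK_nonneg
    calc o ^ 15 = o ^ 14 * o := by ring
      _ ≤ c.w ^ 14 * 1 := mul_le_mul (pow_le_pow_left₀ ho0.le how 14) ho1 ho0.le (by positivity)
      _ = _ := mul_one _
  · calc _ ≤ ∫⁻ x, ENNReal.ofReal (Real.exp (-(c.R / 4) / (4 * o))) *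
          (ENNReal.ofReal (Real.exp (c.Q x / (4 * o))) * ENNReal.ofReal (iniGw x * F x)) := by
          refine lintegral_mono fun x => ?_
          dsimp only
          split_ifs with h4
          · rw [← mul_assoc, ← ENNReal.ofReal_mul (Real.exp_pos _).le, ← Real.exp_add]
            refine le_mul_of_one_le_left' ?_
            rw [ENNReal.one_le_ofReal]
            apply Real.one_le_exp
            rw [← add_div]
            exact div_nonneg (by linarith) (by positivity)
          · exact zero_le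
      _ ≤ ENNReal.ofReal (Real.exp (-(c.R / 4) / (4 * o))) *
          (ENNReal.ofReal (Real.exp (2 * ((∑ i, μ i) / (4 * o)))) *
            ∫⁻ x, ENNReal.ofReal (iniGw x * F x)) := by
          rw [lintegral_const_mul' _ _ ENNReal.ofReal_ne_top]
          exact mul_le_mul_right hE _
      _ ≤ _ := by
          rw [← mul_assoc, ← ENNReal.ofReal_mul (Real.exp_pos _).le, ← Real.exp_add]
          refine mul_le_mul_left (ENNReal.ofReal_le_ofReal (Real.exp_le_exp.2 ?_)) _
          have : -(c.R / 4) / (4 * o) + 2 * ((∑ i, μ i) / (4 * o)) - -y =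
              (2 * (∑ i, μ i) - c.R / 50) / (4 * o) := by
            rw [hy]; field_simp; ring
          have h2 : (2 * (∑ i, μ i) - c.R / 50) / (4 * o) ≤ 0 :=
            div_nonpos_of_nonpos_of_nonneg (by linarith) (by positivity)
          linarith

/-- Loss of mass caused by one check. -/
lemma ini_loss {J : Type} [Fintype J] [DecidableEq J] (c : J → Chk n H) (hc : ∀ j, (c j).Adm)
    (j : J) (B : ℝ) (hB : 0 ≤ B) :
    ∫⁻ x, ENNReal.ofReal (iniGw x * ((if (c j).R / 4 ≤ (c j).Q x then B else 0) *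
        ∏ i ∈ Finset.univ.erase j, (c i).iniPsi x ^ 2)) ≤
      ENNReal.ofReal (2 * B * (iniTailK * ((c j).w ^ 14 / (c j).R ^ 15))) *
        ∫⁻ x, ENNReal.ofReal (iniGw x * ∏ i, (c i).iniPsi x ^ 2) := by
  set F : (Fin n → ℝ) → ℝ := fun x => ∏ i ∈ Finset.univ.erase j, (c i).iniPsi x ^ 2 with hF
  have hFc : Continuous F :=
    continuous_finsetProd _ fun i _ => (c i).ini_continuous_psi.pow 2
  have hF0 : ∀ x, 0 ≤ F x := fun x => Finset.prod_nonneg fun i _ => sq_nonneg _
  have hF1 : ∀ x, F x ≤ 1 := fun x => Finset.prod_le_one (fun i _ => sq_nonneg _)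
    fun i _ => pow_le_one₀ (iniProf_nonneg _) (iniProf_le_one _)
  obtain ⟨p, hp0, hp2, hpK, hp⟩ := ini_tail F hFc.measurable hF0
    (fun x => by simp only [hF, Chk.ini_psi_neg]) (fun x y => by
      simp only [hF]
      rw [← Finset.prod_mul_distrib, ← Finset.prod_pow]
      refine Finset.prod_le_prod (fun i _ => by positivity) fun i _ => ?_
      rw [← mul_pow]
      exact pow_le_pow_left₀ (mul_nonneg (iniProf_nonneg _) (iniProf_nonneg _))
        ((hc i).ini_psi_mid x y) 2) (c j) (hc j)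
  set Zj := ∫⁻ x, ENNReal.ofReal (iniGw x * F x) with hZj
  set Z := ∫⁻ x, ENNReal.ofReal (iniGw x * ∏ i, (c i).iniPsi x ^ 2) with hZ
  set T := ∫⁻ x, (if (c j).R / 4 ≤ (c j).Q x then ENNReal.ofReal (iniGw x * F x) else 0) with hT
  have hZjt : Zj ≠ ∞ := by
    refine ne_top_of_le_ne_top (ini_lint_gw_ne_top n) (lintegral_mono fun x => ?_)
    exact ENNReal.ofReal_le_ofReal (mul_le_of_le_one_right (ini_gw_pos x).le (hF1 x))
  have h1 : Zj ≤ Z + T := by
    rw [hZ, hT, ← lintegral_add_left]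
    · refine lintegral_mono fun x => ?_
      dsimp only
      split_ifs with h4
      · exact le_add_self
      · rw [add_zero, ← Finset.mul_prod_erase _ _ (Finset.mem_univ j)]
        have : (c j).iniPsi x = 1 := by
          apply iniProf_eq_one
          have := (hc j).ini_R_pos'
          rw [div_le_iff₀ this]; linarith
        rw [this]; simp [hF]
    · exact (ini_continuous_gw.mul (continuous_finsetProd _ fun i _ =>
        (c i).ini_continuous_psi.pow 2)).measurable.ennreal_ofReal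
  have h2 : T ≤ Zj / 2 := by
    refine hp.trans ?_
    rw [ENNReal.div_eq_inv_mul]
    refine mul_le_mul_left ?_ _
    refine (ENNReal.ofReal_le_ofReal hp2).trans (le_of_eq ?_)
    rw [one_div, ENNReal.ofReal_inv_of_pos (by norm_num)]; simp
  have h3 : Zj / 2 ≤ Z := by
    have h4 : Zj / 2 + Zj / 2 ≤ Z + Zj / 2 := by
      rw [ENNReal.add_halves]; exact h1.trans (add_le_add le_rfl h2)
    exact (ENNReal.add_le_add_iff_right (ENNReal.div_ne_top hZjt two_ne_zero)).1 h4
  have h5 : Zj ≤ ENNReal.ofReal 2 * Z := by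
    rw [← ENNReal.add_halves Zj, ENNReal.ofReal_ofNat, two_mul]
    exact add_le_add h3 h3
  calc _ = ENNReal.ofReal B * T := by
        rw [hT, ← lintegral_const_mul' _ _ ENNReal.ofReal_ne_top]
        refine lintegral_congr fun x => ?_
        split_ifs with h4
        · rw [← ENNReal.ofReal_mul hB]; congr 1; simp only [hF]; ring
        · simp
    _ ≤ ENNReal.ofReal B * (ENNReal.ofReal p * (ENNReal.ofReal 2 * Z)) :=
        mul_le_mul_right (hp.trans (mul_le_mul_right h5 _)) _
    _ ≤ _ := by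
        rw [← mul_assoc, ← mul_assoc, ← ENNReal.ofReal_mul hB,
          ← ENNReal.ofReal_mul (mul_nonneg hB hp0)]
        refine mul_le_mul_left (ENNReal.ofReal_le_ofReal ?_) _
        nlinarith [mul_le_mul_of_nonneg_left hpK hB]

theorem init : ∃ A : ℝ, 0 ≤ A ∧ ∀ (n : ℕ) (H : Type) [NormedAddCommGroup H]
    [InnerProductSpace ℝ H] (J : Type) [Fintype J] (c : J → Chk n H), (∀ j, (c j).Adm) →
    ∃ f : (Fin n → ℝ) → ℝ≥0∞, Measurable f ∧ (∀ x, f x ≠ 0 → ∀ j, (c j).Q x ≤ (c j).R) ∧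
      ∫⁻ x, f x ^ 2 = 1 ∧ ∀ u : Fin n → ℝ,
        ENNReal.ofReal (1 - ((∑ s, u s ^ 2) / 8 + A * ∑ j, (c j).wt * (c j).Q u)) ≤
          ∫⁻ x, f x * f (x + u) := by
  classical
  refine ⟨72 * iniTailK, mul_nonneg (by norm_num) iniTailK_nonneg, fun n H _ _ J _ c hc => ?_⟩
  set Zm := ∫⁻ x, ENNReal.ofReal (iniGw x * ∏ i, (c i).iniPsi x ^ 2) with hZm
  have hψ0 : ∀ i x, 0 ≤ (c i).iniPsi x := fun i x => iniProf_nonneg _
  have hcc : Continuous fun x => iniGw x * ∏ i, (c i).iniPsi x ^ 2 :=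
    ini_continuous_gw.mul (continuous_finsetProd _ fun i _ => (c i).ini_continuous_psi.pow 2)
  have hZt : Zm ≠ ∞ := by
    refine ne_top_of_le_ne_top (ini_lint_gw_ne_top n) (lintegral_mono fun x => ?_)
    exact ENNReal.ofReal_le_ofReal (mul_le_of_le_one_right (ini_gw_pos x).le
      (Finset.prod_le_one (fun i _ => sq_nonneg _)
        fun i _ => pow_le_one₀ (iniProf_nonneg _) (iniProf_le_one _)))
  have hZ0 : 0 < Zm := by
    rw [hZm, lintegral_pos_iff_support hcc.measurable.ennreal_ofReal]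
    refine IsOpen.measure_pos _ (ENNReal.continuous_ofReal.comp hcc).isOpen_support ⟨0, ?_⟩
    have : ∀ i, (c i).iniPsi 0 = 1 := fun i => by
      apply iniProf_eq_one; simp [Chk.Q, app]
    simp [this, iniGw]
  set Z := Zm.toReal with hZ
  have hZpos : 0 < Z := ENNReal.toReal_pos hZ0.ne' hZt
  have hZZ : Zm = ENNReal.ofReal Z := (ENNReal.ofReal_toReal hZt).symm
  set g : (Fin n → ℝ) → ℝ :=
    fun x => √(Z⁻¹) * (Real.exp (-(∑ s, x s ^ 2) / 4) * ∏ i, (c i).iniPsi x) with hg
  have hg0 : ∀ x, 0 ≤ g x := fun x => mul_nonneg (Real.sqrt_nonneg _)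
    (mul_nonneg (Real.exp_pos _).le (Finset.prod_nonneg fun i _ => hψ0 i x))
  have hgc : Continuous g := continuous_const.mul
    ((by fun_prop : Continuous fun x : Fin n → ℝ => Real.exp (-(∑ s, x s ^ 2) / 4)).mul
      (continuous_finsetProd _ fun i _ => (c i).ini_continuous_psi))
  have hgg : ∀ x h : Fin n → ℝ, g (x - h) * g (x + h) = Z⁻¹ * Real.exp (-(∑ s, h s ^ 2) / 2) *
      (iniGw x * ∏ i, ((c i).iniPsi (x - h) * (c i).iniPsi (x + h))) := by
    intro x h
    have e1 : Real.exp (-(∑ s, (x - h) s ^ 2) / 4) * Real.exp (-(∑ s, (x + h) s ^ 2) / 4) =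
        Real.exp (-(∑ s, h s ^ 2) / 2) * iniGw x := by
      rw [iniGw, ← Real.exp_add, ← Real.exp_add]
      congr 1
      simp only [neg_div, Finset.sum_div, ← Finset.sum_neg_distrib, ← Finset.sum_add_distrib]
      refine Finset.sum_congr rfl fun s _ => ?_
      simp only [Pi.add_apply, Pi.sub_apply]
      ring
    have e2 : √(Z⁻¹) * √(Z⁻¹) = Z⁻¹ := Real.mul_self_sqrt (by positivity)
    rw [Finset.prod_mul_distrib]
    calc _ = (√(Z⁻¹) * √(Z⁻¹)) * (Real.exp (-(∑ s, (x - h) s ^ 2) / 4) *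
          Real.exp (-(∑ s, (x + h) s ^ 2) / 4)) *
          ((∏ i, (c i).iniPsi (x - h)) * ∏ i, (c i).iniPsi (x + h)) := by simp only [hg]; ring
      _ = _ := by rw [e1, e2]; ring
  refine ⟨fun x => ENNReal.ofReal (g x), hgc.measurable.ennreal_ofReal, ?_, ?_, ?_⟩
  · intro x hx j
    by_contra hlt
    apply hx
    have : (c j).iniPsi x = 0 := by
      apply iniProf_eq_zero
      rw [le_div_iff₀ (hc j).ini_R_pos']; linarith
    simp only [hg]
    rw [Finset.prod_eq_zero (Finset.mem_univ j) this]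
    simp
  · have : ∀ x, ENNReal.ofReal (g x) ^ 2 =
        ENNReal.ofReal Z⁻¹ * ENNReal.ofReal (iniGw x * ∏ i, (c i).iniPsi x ^ 2) := by
      intro x
      have := hgg x 0
      simp only [sub_zero, add_zero] at this
      rw [sq, ← ENNReal.ofReal_mul (hg0 x), this, ← ENNReal.ofReal_mul (by positivity)]
      simp [sq]
    simp only [this]
    rw [lintegral_const_mul' _ _ ENNReal.ofReal_ne_top, ← hZm, hZZ,
      ← ENNReal.ofReal_mul (by positivity), inv_mul_cancel₀ hZpos.ne', ENNReal.ofReal_one]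
  · intro u
    set S := 72 * iniTailK * ∑ j, (c j).wt * (c j).Q u with hS
    have hwt : ∀ j, 0 ≤ (c j).wt := fun j => by
      have := (hc j).w_pos
      unfold Chk.wt; positivity
    have hS0 : 0 ≤ S := mul_nonneg (mul_nonneg (by norm_num) iniTailK_nonneg)
      (Finset.sum_nonneg fun j _ => mul_nonneg (hwt j) ((c j).ini_Q_nonneg' u))
    have hu0 : 0 ≤ ∑ s, u s ^ 2 := Finset.sum_nonneg fun s _ => sq_nonneg _
    rcases le_total (1 - ((∑ s, u s ^ 2) / 8 + S)) 0 with h0 | h0
    · rw [ENNReal.ofReal_of_nonpos h0]; exact zero_le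
    set h : Fin n → ℝ := (1 / 2 : ℝ) • u with hh
    have hh2 : ∑ s, h s ^ 2 = (∑ s, u s ^ 2) / 4 := by
      rw [Finset.sum_div]
      refine Finset.sum_congr rfl fun s _ => ?_
      simp only [hh, Pi.smul_apply, smul_eq_mul]; ring
    have hQh : ∀ j, (c j).Q h = (c j).Q u / 4 := by
      intro j
      simp only [Chk.Q, hh, ini_app_smul, norm_smul]
      rw [show ‖(1 / 2 : ℝ)‖ = 1 / 2 by norm_num]; ring
    have hQR : ∀ j, (c j).Q h ≤ (c j).R / 50 := by
      intro j
      have h1 := (hc j).ini_Q_le_w h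
      have h2 : (c j).w * ∑ s, h s ^ 2 ≤ (c j).w * 2 :=
        mul_le_mul_of_nonneg_left (by linarith) (hc j).w_pos.le
      linarith [(hc j).w_le]
    set Ib := ∫⁻ x, ENNReal.ofReal (iniGw x * ∏ i, ((c i).iniPsi (x - h) * (c i).iniPsi (x + h)))
      with hIb
    have hI : ∫⁻ x, ENNReal.ofReal (g x) * ENNReal.ofReal (g (x + u)) =
        ENNReal.ofReal (Z⁻¹ * Real.exp (-(∑ s, h s ^ 2) / 2)) * Ib := by
      rw [← lintegral_sub_right_eq_self _ h, hIb,
        ← lintegral_const_mul' _ _ ENNReal.ofReal_ne_top]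
      refine lintegral_congr fun x => ?_
      have : x - h + u = x + h := by
        rw [hh]; ext s; simp only [Pi.add_apply, Pi.sub_apply, Pi.smul_apply, smul_eq_mul]; ring
      rw [this, ← ENNReal.ofReal_mul (hg0 _), hgg, ← ENNReal.ofReal_mul (by positivity)]
    have hd0 : ∀ j, 0 ≤ 144 * ((c j).Q h / (c j).R) := fun j =>
      mul_nonneg (by norm_num) (div_nonneg ((c j).ini_Q_nonneg' h) (hc j).ini_R_pos'.le)
    have hmain : Zm ≤ Ib + ENNReal.ofReal S * Zm := by
      calc Zm ≤ ∫⁻ x, (ENNReal.ofReal (iniGw x * ∏ i, ((c i).iniPsi (x - h) * (c i).iniPsi (x + h))) +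
            ∑ j, ENNReal.ofReal (iniGw x * ((if (c j).R / 4 ≤ (c j).Q x then
              144 * ((c j).Q h / (c j).R) else 0) *
              ∏ i ∈ Finset.univ.erase j, (c i).iniPsi x ^ 2))) := by
            refine lintegral_mono fun x => ?_
            have hd : ∀ j, 0 ≤ (if (c j).R / 4 ≤ (c j).Q x then
                144 * ((c j).Q h / (c j).R) else 0) := fun j => by
              split_ifs
              · exact hd0 j
              · exact le_rfl
            have key := ini_prod_le_prod_add Finset.univ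
              (fun i => (c i).iniPsi (x - h) * (c i).iniPsi (x + h)) (fun i => (c i).iniPsi x ^ 2)
              (fun j => if (c j).R / 4 ≤ (c j).Q x then 144 * ((c j).Q h / (c j).R) else 0)
              (fun i => mul_nonneg (hψ0 _ _) (hψ0 _ _))
              (fun i => by
                have := (hc i).ini_psi_mid (x - h) (x + h)
                rwa [show (1 / 2 : ℝ) • (x - h) + (1 / 2 : ℝ) • (x + h) = x by
                  ext s; simp only [Pi.add_apply, Pi.sub_apply, Pi.smul_apply, smul_eq_mul]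
                  ring] at this)
              hd (fun i => (hc i).ini_psi_core x h (hQR i))
            dsimp only
            rw [← ENNReal.ofReal_sum_of_nonneg (fun j _ => mul_nonneg (ini_gw_pos x).le
              (mul_nonneg (hd j) (Finset.prod_nonneg fun i _ => sq_nonneg _))),
              ← ENNReal.ofReal_add (mul_nonneg (ini_gw_pos x).le
                (Finset.prod_nonneg fun i _ => mul_nonneg (hψ0 _ _) (hψ0 _ _)))
                (Finset.sum_nonneg fun j _ => mul_nonneg (ini_gw_pos x).le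
                  (mul_nonneg (hd j) (Finset.prod_nonneg fun i _ => sq_nonneg _))),
              ← Finset.mul_sum, ← mul_add]
            exact ENNReal.ofReal_le_ofReal (mul_le_mul_of_nonneg_left key (ini_gw_pos x).le)
        _ = Ib + ∑ j, ∫⁻ x, ENNReal.ofReal (iniGw x * ((if (c j).R / 4 ≤ (c j).Q x then
              144 * ((c j).Q h / (c j).R) else 0) *
              ∏ i ∈ Finset.univ.erase j, (c i).iniPsi x ^ 2)) := by
            rw [lintegral_add_left, lintegral_finsetSum]
            · intro j _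
              refine (ini_continuous_gw.measurable.mul (Measurable.mul ?_
                (continuous_finsetProd _ fun i _ =>
                  (c i).ini_continuous_psi.pow 2).measurable)).ennreal_ofReal
              exact Measurable.ite (measurableSet_le measurable_const
                (c j).ini_continuous_Q.measurable) measurable_const measurable_const
            · exact (ini_continuous_gw.mul (continuous_finsetProd _ fun i _ =>
                ((c i).ini_continuous_psi.comp (continuous_id.sub continuous_const)).mul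
                ((c i).ini_continuous_psi.comp
                  (continuous_id.add continuous_const)))).measurable.ennreal_ofReal
        _ ≤ Ib + ∑ j, ENNReal.ofReal (72 * iniTailK * ((c j).wt * (c j).Q u)) * Zm := by
            refine add_le_add le_rfl (Finset.sum_le_sum fun j _ => ?_)
            refine (ini_loss c hc j _ (hd0 j)).trans (le_of_eq ?_)
            congr 2
            have := (hc j).ini_R_pos'
            rw [hQh, Chk.wt]; field_simp; ring
        _ = _ := by
            rw [← Finset.sum_mul, ← ENNReal.ofReal_sum_of_nonneg (fun j _ =>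
              mul_nonneg (mul_nonneg (by norm_num) iniTailK_nonneg)
                (mul_nonneg (hwt j) ((c j).ini_Q_nonneg' u))), ← Finset.mul_sum]
    have hIb' : ENNReal.ofReal (Z - S * Z) ≤ Ib := by
      rw [ENNReal.ofReal_sub _ (by positivity), tsub_le_iff_right, ENNReal.ofReal_mul hS0, ← hZZ]
      exact hmain
    rw [hI]
    refine le_trans ?_ (mul_le_mul_right hIb' _)
    rw [← ENNReal.ofReal_mul (by positivity)]
    apply ENNReal.ofReal_le_ofReal
    have e : Z⁻¹ * Real.exp (-(∑ s, h s ^ 2) / 2) * (Z - S * Z) =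
        Real.exp (-((∑ s, u s ^ 2) / 8)) * (1 - S) := by
      rw [hh2, show -((∑ s, u s ^ 2) / 4) / 2 = -((∑ s, u s ^ 2) / 8) by ring]
      field_simp
    rw [e]
    have h1 := Real.add_one_le_exp (-((∑ s, u s ^ 2) / 8))
    have h2 := mul_le_mul_of_nonneg_right h1 (by linarith : 0 ≤ 1 - S)
    nlinarith [mul_nonneg hu0 hS0]

end Crest.Agent.Pre
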