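import Crest.Agent.Pre.Defs
import Crest.Agent.PL.Basic

/-!
# Gaussian tail bounds under an even log-concave weight
-/

set_option autoImplicit false

open MeasureTheory ProbabilityTheory Finset
open scoped ENNReal

namespace Crest.Agent.Pre

/-- The unnormalised Gaussian weight. -/
noncomputable def iniGw {n : ℕ} (x : Fin n → ℝ) : ℝ := Real.exp (-(∑ s, x s ^ 2) / 2)

lemma ini_gw_pos {n : ℕ} (x : Fin n → ℝ) : 0 < iniGw x := Real.exp_pos _

lemma ini_continuous_gw {n : ℕ} : Continuous (iniGw : (Fin n → ℝ) → ℝ) := by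
  unfold iniGw; fun_prop

lemma ini_lint_gw_ne_top (n : ℕ) : ∫⁻ x : Fin n → ℝ, ENNReal.ofReal (iniGw x) ≠ ∞ := by
  have h : Integrable (fun x : Fin n → ℝ => ∏ s, Real.exp (-(1 / 2) * x s ^ 2)) volume :=
    Integrable.fintype_prod (f := fun _ (y : ℝ) => Real.exp (-(1 / 2) * y ^ 2))
      (fun _ => integrable_exp_neg_mul_sq (by norm_num))
  have h2 : (fun x : Fin n → ℝ => ∏ s, Real.exp (-(1 / 2) * x s ^ 2)) = iniGw := by
    funext x
    rw [iniGw, ← Real.exp_sum, ← Finset.mul_sum]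
    congr 1; ring
  rw [h2] at h
  exact h.lintegral_lt_top.ne

/-- Sub-Gaussianity from Prékopa–Leindler. -/
lemma ini_subgauss {n : ℕ} (F : (Fin n → ℝ) → ℝ) (hFm : Measurable F) (hF0 : ∀ x, 0 ≤ F x)
    (hFe : ∀ x, F (-x) = F x)
    (hFl : ∀ x y, F x * F y ≤ F ((1 / 2 : ℝ) • x + (1 / 2 : ℝ) • y) ^ 2) (θ : Fin n → ℝ) :
    ∫⁻ x, ENNReal.ofReal (Real.exp (∑ s, θ s * x s)) * ENNReal.ofReal (iniGw x * F x) ≤
      ENNReal.ofReal (Real.exp ((∑ s, θ s ^ 2) / 2)) * ∫⁻ x, ENNReal.ofReal (iniGw x * F x) := by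
  set f : (Fin n → ℝ) → ℝ≥0∞ :=
    fun x => ENNReal.ofReal (Real.exp (∑ s, θ s * x s)) * ENNReal.ofReal (iniGw x * F x) with hf
  have hgm : Measurable (iniGw : (Fin n → ℝ) → ℝ) := ini_continuous_gw.measurable
  have hfm : Measurable f := by
    rw [hf]
    exact (by fun_prop : Measurable fun x : Fin n → ℝ =>
      Real.exp (∑ s, θ s * x s)).ennreal_ofReal.mul (hgm.mul hFm).ennreal_ofReal
  have key := PL.hasPL_pi (a := 1 / 2) (b := 1 / 2) (by norm_num) (by norm_num) (by norm_num) n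
    f (fun x => f (-x))
    (fun x => ENNReal.ofReal (Real.exp ((∑ s, θ s ^ 2) / 2)) * ENNReal.ofReal (iniGw x * F x))
    hfm (hfm.comp measurable_neg) ((hgm.mul hFm).ennreal_ofReal.const_mul _) (by
      intro x y
      simp only [hf]
      rw [← ENNReal.mul_rpow_of_nonneg _ _ (by norm_num),
        ← ENNReal.ofReal_mul (Real.exp_pos _).le, ← ENNReal.ofReal_mul (Real.exp_pos _).le,
        ← ENNReal.ofReal_mul (Real.exp_pos _).le,
        ← ENNReal.ofReal_mul (mul_nonneg (Real.exp_pos _).le (mul_nonneg (ini_gw_pos _).le (hF0 _))),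
        ENNReal.ofReal_rpow_of_nonneg
          (mul_nonneg (mul_nonneg (Real.exp_pos _).le (mul_nonneg (ini_gw_pos _).le (hF0 _)))
            (mul_nonneg (Real.exp_pos _).le (mul_nonneg (ini_gw_pos _).le (hF0 _)))) (by norm_num)]
      apply ENNReal.ofReal_le_ofReal
      rw [← Real.sqrt_eq_rpow]
      refine Real.sqrt_le_iff.2
        ⟨mul_nonneg (Real.exp_pos _).le (mul_nonneg (ini_gw_pos _).le (hF0 _)), ?_⟩
      rw [hFe]
      have h1 : Real.exp (∑ s, θ s * x s) * iniGw x * (Real.exp (∑ s, θ s * (-y) s) * iniGw (-y)) ≤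
          (Real.exp ((∑ s, θ s ^ 2) / 2) * iniGw ((1 / 2 : ℝ) • x + (1 / 2 : ℝ) • y)) ^ 2 := by
        simp only [iniGw, ← Real.exp_add, sq (Real.exp _)]
        apply Real.exp_le_exp.2
        have : 0 ≤ ∑ s, (θ s - (x s - y s) / 2) ^ 2 := Finset.sum_nonneg fun s _ => sq_nonneg _
        have e : ∑ s, (θ s - (x s - y s) / 2) ^ 2 =
            ((∑ s, θ s ^ 2) / 2 + -(∑ s, ((1 / 2 : ℝ) • x + (1 / 2 : ℝ) • y) s ^ 2) / 2 +
              ((∑ s, θ s ^ 2) / 2 + -(∑ s, ((1 / 2 : ℝ) • x + (1 / 2 : ℝ) • y) s ^ 2) / 2)) -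
            (∑ s, θ s * x s + -(∑ s, x s ^ 2) / 2 +
              (∑ s, θ s * (-y) s + -(∑ s, (-y) s ^ 2) / 2)) := by
          simp only [neg_div, Finset.sum_div, ← Finset.sum_neg_distrib, ← Finset.sum_add_distrib,
            ← Finset.sum_sub_distrib]
          refine Finset.sum_congr rfl fun s _ => ?_
          simp only [Pi.add_apply, Pi.smul_apply, smul_eq_mul, Pi.neg_apply]
          ring
        linarith
      calc _ = (Real.exp (∑ s, θ s * x s) * iniGw x * (Real.exp (∑ s, θ s * (-y) s) * iniGw (-y))) *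
            (F x * F y) := by ring
        _ ≤ (Real.exp ((∑ s, θ s ^ 2) / 2) * iniGw ((1 / 2 : ℝ) • x + (1 / 2 : ℝ) • y)) ^ 2 *
            F ((1 / 2 : ℝ) • x + (1 / 2 : ℝ) • y) ^ 2 :=
          mul_le_mul h1 (hFl x y) (mul_nonneg (hF0 _) (hF0 _)) (sq_nonneg _)
        _ = _ := by ring)
  rw [lintegral_neg_eq_self f, ← ENNReal.rpow_add_of_nonneg _ _ (by norm_num) (by norm_num),
    lintegral_const_mul' _ _ ENNReal.ofReal_ne_top,
    show (1 / 2 + 1 / 2 : ℝ) = 1 by norm_num, ENNReal.rpow_one] at key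
  exact key

lemma ini_gauss_lin (t : ℝ) : ∫ g, Real.exp (t * g) ∂(gaussianReal 0 1) = Real.exp (t ^ 2 / 2) := by
  have := congrFun (mgf_fun_id_gaussianReal (μ := 0) (v := 1)) t
  simpa [mgf] using this

lemma ini_gauss_sq_eq (m : ℝ) (g : ℝ) : gaussianPDFReal 0 1 g * Real.exp (m * g ^ 2) =
    (√(2 * Real.pi))⁻¹ * Real.exp (-(1 / 2 - m) * g ^ 2) := by
  simp only [gaussianPDFReal, NNReal.coe_one, mul_one, sub_zero, mul_assoc, ← Real.exp_add]
  congr 2; ring

lemma ini_gauss_sq_int (m : ℝ) (hm : m ≤ 1 / 4) :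
    Integrable (fun g => Real.exp (m * g ^ 2)) (gaussianReal 0 1) := by
  rw [gaussianReal_of_var_ne_zero _ one_ne_zero,
    integrable_withDensity_iff_integrable_smul' (measurable_gaussianPDF _ _)
      (ae_of_all _ fun _ => gaussianPDF_lt_top)]
  simp only [toReal_gaussianPDF, smul_eq_mul, ini_gauss_sq_eq]
  exact (integrable_exp_neg_mul_sq (by linarith)).const_mul _

lemma ini_gauss_sq (m : ℝ) (hm0 : 0 ≤ m) (hm : m ≤ 1 / 4) :
    ∫ g, Real.exp (m * g ^ 2) ∂(gaussianReal 0 1) ≤ Real.exp (2 * m) := by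
  rw [integral_gaussianReal_eq_integral_smul one_ne_zero]
  simp only [smul_eq_mul, ini_gauss_sq_eq]
  rw [integral_const_mul, integral_gaussian]
  have hpi := Real.pi_pos
  rw [inv_mul_le_iff₀ (by positivity)]
  refine Real.sqrt_le_iff.2 ⟨by positivity, ?_⟩
  rw [mul_pow, Real.sq_sqrt (by positivity), div_le_iff₀ (by linarith)]
  have h1 : 1 + 4 * m ≤ Real.exp (2 * m) ^ 2 := by
    rw [sq, ← Real.exp_add]
    have := Real.add_one_le_exp (2 * m + 2 * m)
    linarith
  have h2 : 1 ≤ (1 + 4 * m) * (1 - 2 * m) := by nlinarith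
  have h3 : (1 + 4 * m) * (1 - 2 * m) ≤ Real.exp (2 * m) ^ 2 * (1 - 2 * m) :=
    mul_le_mul_of_nonneg_right h1 (by linarith)
  nlinarith

/-- Exponential moment of a diagonalised quadratic form under a sub-Gaussian weight. -/
lemma ini_expmoment {n : ℕ} (W : (Fin n → ℝ) → ℝ≥0∞) (hW : Measurable W)
    (hsg : ∀ θ : Fin n → ℝ, ∫⁻ x, ENNReal.ofReal (Real.exp (∑ s, θ s * x s)) * W x ≤
      ENNReal.ofReal (Real.exp ((∑ s, θ s ^ 2) / 2)) * ∫⁻ x, W x)
    (U : Fin n → Fin n → ℝ) (hU : ∀ t : Fin n → ℝ, ∑ s, (∑ i, U s i * t i) ^ 2 = ∑ i, t i ^ 2)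
    (m : Fin n → ℝ) (hm0 : ∀ i, 0 ≤ m i) (hm : ∀ i, m i ≤ 1 / 4) :
    ∫⁻ x, ENNReal.ofReal (Real.exp (∑ i, m i * (∑ s, U s i * x s) ^ 2)) * W x ≤
      ENNReal.ofReal (Real.exp (2 * ∑ i, m i)) * ∫⁻ x, W x := by
  set γ : Measure (Fin n → ℝ) := Measure.pi fun _ => gaussianReal 0 1 with hγ
  have h1 : ∀ x : Fin n → ℝ, ENNReal.ofReal (Real.exp (∑ i, m i * (∑ s, U s i * x s) ^ 2)) =
      ∫⁻ g, ENNReal.ofReal (Real.exp (∑ s, (∑ i, U s i * (√(2 * m i) * g i)) * x s)) ∂γ := by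
    intro x
    have e : ∀ g : Fin n → ℝ, Real.exp (∑ s, (∑ i, U s i * (√(2 * m i) * g i)) * x s) =
        ∏ i, Real.exp ((√(2 * m i) * ∑ s, U s i * x s) * g i) := by
      intro g
      rw [← Real.exp_sum]
      congr 1
      simp only [Finset.sum_mul, Finset.mul_sum]
      rw [Finset.sum_comm]
      refine Finset.sum_congr rfl fun i _ => Finset.sum_congr rfl fun s _ => by ring
    simp only [e]
    rw [← ofReal_integral_eq_lintegral_ofReal
      (Integrable.fintype_prod (f := fun i (y : ℝ) =>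
        Real.exp ((√(2 * m i) * ∑ s, U s i * x s) * y))
        (fun i => integrable_exp_mul_gaussianReal _))
      (ae_of_all _ fun g => Finset.prod_nonneg fun i _ => (Real.exp_pos _).le),
      integral_fintype_prod_eq_prod (f := fun i (y : ℝ) =>
        Real.exp ((√(2 * m i) * ∑ s, U s i * x s) * y))]
    simp only [ini_gauss_lin]
    rw [← Real.exp_sum]
    congr 2
    refine Finset.sum_congr rfl fun i _ => ?_
    rw [mul_pow, Real.sq_sqrt (by linarith [hm0 i])]
    ring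
  have h2 : ∫⁻ g, ENNReal.ofReal (Real.exp (∑ i, m i * g i ^ 2)) ∂γ ≤
      ENNReal.ofReal (Real.exp (2 * ∑ i, m i)) := by
    simp only [Real.exp_sum]
    rw [← ofReal_integral_eq_lintegral_ofReal
      (Integrable.fintype_prod (f := fun i (y : ℝ) => Real.exp (m i * y ^ 2))
        (fun i => ini_gauss_sq_int _ (hm i)))
      (ae_of_all _ fun g => Finset.prod_nonneg fun i _ => (Real.exp_pos _).le),
      integral_fintype_prod_eq_prod (f := fun i (y : ℝ) => Real.exp (m i * y ^ 2))]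
    apply ENNReal.ofReal_le_ofReal
    rw [Finset.mul_sum, Real.exp_sum]
    exact Finset.prod_le_prod (fun i _ => integral_nonneg fun g => (Real.exp_pos _).le)
      fun i _ => ini_gauss_sq _ (hm0 i) (hm i)
  have hmeas : Measurable fun p : (Fin n → ℝ) × (Fin n → ℝ) =>
      ENNReal.ofReal (Real.exp (∑ s, (∑ i, U s i * (√(2 * m i) * p.2 i)) * p.1 s)) * W p.1 :=
    (by fun_prop : Measurable fun p : (Fin n → ℝ) × (Fin n → ℝ) =>
      Real.exp (∑ s, (∑ i, U s i * (√(2 * m i) * p.2 i)) * p.1 s)).ennreal_ofReal.mul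
      (hW.comp measurable_fst)
  calc ∫⁻ x, ENNReal.ofReal (Real.exp (∑ i, m i * (∑ s, U s i * x s) ^ 2)) * W x
      = ∫⁻ x, ∫⁻ g, ENNReal.ofReal
          (Real.exp (∑ s, (∑ i, U s i * (√(2 * m i) * g i)) * x s)) * W x ∂γ := by
        refine lintegral_congr fun x => ?_
        rw [h1, lintegral_mul_const]
        exact (by fun_prop : Measurable fun g : Fin n → ℝ =>
          Real.exp (∑ s, (∑ i, U s i * (√(2 * m i) * g i)) * x s)).ennreal_ofReal
    _ = ∫⁻ g, (∫⁻ x, ENNReal.ofReal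
          (Real.exp (∑ s, (∑ i, U s i * (√(2 * m i) * g i)) * x s)) * W x) ∂γ :=
        lintegral_lintegral_swap hmeas.aemeasurable
    _ ≤ ∫⁻ g, ENNReal.ofReal (Real.exp (∑ i, m i * g i ^ 2)) * (∫⁻ x, W x) ∂γ := by
        refine lintegral_mono fun g => ?_
        refine (hsg _).trans (le_of_eq ?_)
        rw [hU]
        congr 3
        rw [Finset.sum_div]
        refine Finset.sum_congr rfl fun i _ => ?_
        rw [mul_pow, Real.sq_sqrt (by linarith [hm0 i])]
        ring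
    _ ≤ _ := by
        rw [lintegral_mul_const]
        · exact mul_le_mul_left h2 _
        · exact (by fun_prop : Measurable fun g : Fin n → ℝ =>
            Real.exp (∑ i, m i * g i ^ 2)).ennreal_ofReal

variable {n : ℕ} {H : Type} [NormedAddCommGroup H] [InnerProductSpace ℝ H]

/-- Diagonalisation of the checked quadratic form. -/
lemma ini_diag (c : Chk n H) (hc : c.Adm) : ∃ (U : Fin n → Fin n → ℝ) (μ : Fin n → ℝ),
    (∀ i, 0 ≤ μ i) ∧ (∀ i, μ i ≤ 1) ∧ (∑ i, μ i ≤ c.w) ∧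
    (∀ x, c.Q x = ∑ i, μ i * (∑ s, U s i * x s) ^ 2) ∧
    (∀ t : Fin n → ℝ, ∑ s, (∑ i, U s i * t i) ^ 2 = ∑ i, t i ^ 2) := by
  classical
  have hM := Matrix.isHermitian_gram ℝ c.u
  set U : Matrix (Fin n) (Fin n) ℝ := (hM.eigenvectorUnitary : Matrix (Fin n) (Fin n) ℝ) with hUdef
  have hUU : star U * U = 1 := Unitary.coe_star_mul_self _
  have hUU' : ∀ i k, ∑ s, U s i * U s k = if i = k then 1 else 0 := by
    intro i k
    have := congrFun (congrFun hUU i) k
    simpa [Matrix.mul_apply, Matrix.one_apply, Matrix.star_apply] using this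
  have hsp : ∀ s t, inner ℝ (c.u s) (c.u t) = ∑ i, U s i * hM.eigenvalues i * U t i := by
    intro s t
    have := congrFun (congrFun hM.spectral_theorem s) t
    rw [Unitary.conjStarAlgAut_apply] at this
    rw [← Matrix.gram_apply, this, Matrix.mul_apply]
    refine Finset.sum_congr rfl fun i _ => ?_
    rw [Matrix.mul_diagonal]
    simp [hUdef, Matrix.star_apply]
  have hQ : ∀ x, c.Q x = ∑ i, hM.eigenvalues i * (∑ s, U s i * x s) ^ 2 := by
    intro x
    rw [Chk.Q, app, ← real_inner_self_eq_norm_sq, sum_inner]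
    simp only [inner_sum, real_inner_smul_left, real_inner_smul_right, hsp, sq, Finset.mul_sum,
      Finset.sum_mul]
    rw [Finset.sum_comm (s := Finset.univ) (t := Finset.univ)
      (f := fun i s => ∑ t, hM.eigenvalues i * (U t i * x t * (U s i * x s)))]
    refine Finset.sum_congr rfl fun s _ => ?_
    rw [Finset.sum_comm]
    refine Finset.sum_congr rfl fun i _ => Finset.sum_congr rfl fun t _ => by ring
  have hiso : ∀ t : Fin n → ℝ, ∑ s, (∑ i, U s i * t i) ^ 2 = ∑ i, t i ^ 2 := by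
    intro t
    calc ∑ s, (∑ i, U s i * t i) ^ 2 = ∑ i, ∑ k, t i * t k * ∑ s, U s i * U s k := by
          simp only [sq, Finset.mul_sum, Finset.sum_mul]
          rw [Finset.sum_comm]
          refine Finset.sum_congr rfl fun i _ => ?_
          rw [Finset.sum_comm]
          refine Finset.sum_congr rfl fun k _ => Finset.sum_congr rfl fun s _ => by ring
      _ = _ := by simp [hUU', sq]
  have hev : ∀ k, hM.eigenvalues k = c.Q fun s => U s k := by
    intro k
    rw [hQ]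
    simp [hUU']
  refine ⟨fun s i => U s i, hM.eigenvalues, fun i => ?_, fun i => ?_, ?_, hQ, hiso⟩
  · rw [hev]; exact sq_nonneg _
  · rw [hev]
    refine (hc.op _).trans (le_of_eq ?_)
    simpa [sq] using hUU' i i
  · have := hM.trace_eq_sum_eigenvalues
    refine le_trans (le_of_eq ?_) hc.hs
    simp only [Matrix.trace, Matrix.diag, Matrix.gram_apply, real_inner_self_eq_norm_sq,
      RCLike.ofReal_real_eq_id, id] at this
    exact this.symm

end Crest.Agent.Pre
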