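import Crest.Agent.Pre.Checks
import Crest.Agent.Pre.Init
import Crest.Agent.Pre.Heal

/-!
# The prefix discrepancy theorem
-/

set_option autoImplicit false
set_option linter.unusedSectionVars false

open Finset
open scoped RealInnerProductSpace

namespace Crest.Agent.Pre

section app
variable {n : ℕ} {H : Type} [NormedAddCommGroup H] [InnerProductSpace ℝ H]

lemma app_add (u : Fin n → H) (x y : Fin n → ℝ) : app u (x + y) = app u x + app u y := by
  simp [app, add_smul, sum_add_distrib]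

lemma app_sub (u : Fin n → H) (x y : Fin n → ℝ) : app u (x - y) = app u x - app u y := by
  simp [app, sub_smul, sum_sub_distrib]

lemma app_smul (u : Fin n → H) (c : ℝ) (x : Fin n → ℝ) : app u (c • x) = c • app u x := by
  simp [app, smul_sum, mul_smul]

lemma Chk.Q_par (c : Chk n H) (x y : Fin n → ℝ) :
    c.Q (x + y) + c.Q (x - y) = 2 * c.Q x + 2 * c.Q y := by
  unfold Chk.Q
  rw [app_add, app_sub, norm_add_sq_real, norm_sub_sq_real]; ring

lemma Chk.Q_smul (c : Chk n H) (a : ℝ) (x : Fin n → ℝ) : c.Q (a • x) = a ^ 2 * c.Q x := by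
  unfold Chk.Q
  rw [app_smul, norm_smul, mul_pow, Real.norm_eq_abs, sq_abs]

lemma Chk.Q_single (c : Chk n H) (s : Fin n) : c.Q (Pi.single s 1) = ‖c.u s‖ ^ 2 := by
  unfold Chk.Q app
  rw [sum_eq_single s] <;> simp +contextual

lemma Chk.Q_conv (c : Chk n H) (x y : Fin n → ℝ) {a b : ℝ} (ha : 0 ≤ a) (hb : 0 ≤ b)
    (hab : a + b = 1) : c.Q (a • x + b • y) ≤ a * c.Q x + b * c.Q y := by
  unfold Chk.Q
  rw [app_add, app_smul, app_smul]
  have h1 := norm_add_le (a • app c.u x) (b • app c.u y)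
  rw [norm_smul, norm_smul, Real.norm_of_nonneg ha, Real.norm_of_nonneg hb] at h1
  refine (pow_le_pow_left₀ (norm_nonneg _) h1 2).trans ?_
  have : b = 1 - a := by linarith
  subst this
  nlinarith [mul_nonneg (mul_nonneg ha hb) (sq_nonneg (‖app c.u x‖ - ‖app c.u y‖))]

lemma Chk.wt_nonneg (c : Chk n H) : 0 ≤ c.wt := by unfold Chk.wt; positivity

/-- Signs for which the healed sum satisfies all checks. -/
theorem signs_checks : ∃ B : ℝ, 0 ≤ B ∧ ∀ (n : ℕ) (H : Type) [NormedAddCommGroup H]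
    [InnerProductSpace ℝ H] (cs : List (Chk n H)), (∀ c ∈ cs, c.Adm) → (∀ s, cost cs s ≤ 64) →
    ∀ b : ℕ → Fin n → ℝ, (∀ t : Fin n, ∃ (γ : ℕ → ℝ) (a : ℝ),
      b t + ∑ i ∈ Ico (t + 1 : ℕ) n, γ i • b i = a • Pi.single t 1 ∧
      B * a ^ 2 + 17 * ∑ i ∈ Ico (t + 1 : ℕ) n, γ i ^ 2 ≤ 1 / 14400) →
    ∃ ε : ℕ → ℝ, (∀ i, ε i = 1 ∨ ε i = -1) ∧
      ∀ c ∈ cs, c.Q (∑ i ∈ range n, ε i • b i) ≤ c.R := by
  obtain ⟨A, hA, H⟩ := init
  refine ⟨1 / 8 + 64 * A, by positivity, fun n H' _ _ cs hadm hcost b hb => ?_⟩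
  obtain ⟨f, hf, hs, h1, hq⟩ := H n H' (Fin cs.length) (fun j => cs[j.1])
    fun j => hadm _ (List.getElem_mem _)
  obtain ⟨ε, hε, hK⟩ := heal {x | ∀ j : Fin cs.length, cs[j.1].Q x ≤ cs[j.1].R}
    (fun x hx y hy a b ha hb hab j => by
      refine (Chk.Q_conv _ x y ha hb hab).trans ?_
      calc _ ≤ a * cs[j.1].R + b * cs[j.1].R := by gcongr; exacts [hx j, hy j]
        _ = _ := by rw [← add_mul, hab, one_mul])
    (fun x hx j => by
      have := Chk.Q_smul cs[j.1] (-1) x
      rw [neg_one_smul] at this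
      rw [this]; simpa using hx j)
    f hf hs h1
    (fun u => (∑ s, u s ^ 2) / 8 + A * ∑ j : Fin cs.length, cs[j.1].wt * cs[j.1].Q u)
    (fun u => add_nonneg (by positivity)
      (mul_nonneg hA (sum_nonneg fun j _ => mul_nonneg (Chk.wt_nonneg _) (sq_nonneg _))))
    (fun x y => by
      have e1 : ∑ s, (x + y) s ^ 2 + ∑ s, (x - y) s ^ 2 = 2 * ∑ s, x s ^ 2 + 2 * ∑ s, y s ^ 2 := by
        rw [mul_sum, mul_sum, ← sum_add_distrib, ← sum_add_distrib]
        exact sum_congr rfl fun s _ => by simp; ring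
      have e2 : ∑ j : Fin cs.length, cs[j.1].wt * cs[j.1].Q (x + y) +
          ∑ j : Fin cs.length, cs[j.1].wt * cs[j.1].Q (x - y) =
          2 * ∑ j : Fin cs.length, cs[j.1].wt * cs[j.1].Q x +
          2 * ∑ j : Fin cs.length, cs[j.1].wt * cs[j.1].Q y := by
        rw [mul_sum, mul_sum, ← sum_add_distrib, ← sum_add_distrib]
        exact sum_congr rfl fun j _ => by rw [← mul_add, Chk.Q_par]; ring
      refine le_of_eq ?_
      linear_combination e1 / 8 + A * e2)
    (fun a x => by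
      have e1 : ∑ s, (a • x) s ^ 2 = a ^ 2 * ∑ s, x s ^ 2 := by
        rw [mul_sum]; exact sum_congr rfl fun s _ => by simp; ring
      have e2 : ∑ j : Fin cs.length, cs[j.1].wt * cs[j.1].Q (a • x) =
          a ^ 2 * ∑ j : Fin cs.length, cs[j.1].wt * cs[j.1].Q x := by
        rw [mul_sum]; exact sum_congr rfl fun j _ => by rw [Chk.Q_smul]; ring
      linear_combination e1 / 8 + A * e2)
    hq b n (fun t ht => by
      obtain ⟨γ, a, e, hle⟩ := hb ⟨t, ht⟩
      refine ⟨γ, le_trans ?_ hle⟩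
      simp only at e
      rw [e]
      have e1 : ∑ s, (a • (Pi.single ⟨t, ht⟩ 1 : Fin n → ℝ)) s ^ 2 = a ^ 2 := by
        rw [sum_eq_single ⟨t, ht⟩] <;> simp +contextual
      have e2 : ∑ j : Fin cs.length, cs[j.1].wt * cs[j.1].Q (a • Pi.single ⟨t, ht⟩ 1) =
          a ^ 2 * cost cs ⟨t, ht⟩ := by
        unfold cost
        rw [← Fin.sum_univ_fun_getElem, mul_sum]
        exact sum_congr rfl fun j _ => by rw [Chk.Q_smul, Chk.Q_single]; ring
      rw [e1, e2]
      have := mul_le_mul_of_nonneg_left (hcost ⟨t, ht⟩) (mul_nonneg hA (sq_nonneg a))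
      simp only
      nlinarith)
  refine ⟨ε, hε, fun c hc => ?_⟩
  obtain ⟨j, hj, rfl⟩ := List.getElem_of_mem hc
  exact hK ⟨j, hj⟩

end app

/-- The steps of the filter. -/
noncomputable def steps {d : ℕ} (n : ℕ) (v : ℕ → EuclideanSpace ℝ (Fin d)) (t : ℕ) :
    EuclideanSpace ℝ (Fin d) :=
  if t < n then (1 / 1000 : ℝ) • v t else
    if h : t - n < d then EuclideanSpace.single ⟨t - n, h⟩ 1 else 0

variable {d n : ℕ} {v : ℕ → EuclideanSpace ℝ (Fin d)}

lemma steps_le (hv : ∀ i, ‖v i‖ ≤ 1) (t : ℕ) : ‖steps n v t‖ ≤ 1 := by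
  unfold steps
  split_ifs
  · rw [norm_smul]; have := hv t; have := norm_nonneg (v t); simp; linarith
  · simp
  · simp

lemma steps_kill (y : EuclideanSpace ℝ (Fin d)) : Fl (steps n v) n (n + d) y = 0 := by
  have : ∀ j ≤ d, ∀ i : Fin d, (i : ℕ) < j → Fl (steps n v) n (n + j) y i = 0 := by
    intro j
    induction j with
    | zero => intro _ i hi; omega
    | succ j ih =>
      intro hj i hi
      have e : steps n v (n + j) = EuclideanSpace.single ⟨j, hj⟩ 1 := by
        unfold steps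
        rw [if_neg (by omega), dif_pos (by omega)]
        congr 2; omega
      rw [← add_assoc, Fl_succ (by omega), Cn_apply, e]
      by_cases h : i = ⟨j, hj⟩
      · subst h; simp [EuclideanSpace.inner_single_left]
      · have : (i : ℕ) < j := by
          have : (i : ℕ) ≠ j := fun h' => h (Fin.ext h')
          omega
        simp [ih (by omega) i this, h]
  ext i
  exact this d le_rfl i i.2

/-- The normalising factor. -/
noncomputable def bet (n : ℕ) (v : ℕ → EuclideanSpace ℝ (Fin d)) (k : ℕ) : ℝ :=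
  √(2 - ‖steps n v k‖ ^ 2) / 1000

lemma bet_ge (hv : ∀ i, ‖v i‖ ≤ 1) (k : ℕ) : 1 / 1000 ≤ bet n v k := by
  unfold bet
  gcongr
  refine Real.one_le_sqrt.2 ?_
  have := steps_le (n := n) hv k
  nlinarith [norm_nonneg (steps n v k)]

lemma ov_steps {k : ℕ} (hk : k < n) : ov (steps n v k) = bet n v k • v k := by
  unfold ov bet
  generalize √(2 - ‖steps n v k‖ ^ 2) = β
  rw [steps, if_pos hk, smul_smul]; congr 1; ring

lemma Cn_steps {k : ℕ} (hk : k < n) (y : EuclideanSpace ℝ (Fin d)) :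
    Cn (steps n v k) y = y - (⟪v k, y⟫ / 10 ^ 6) • v k := by
  rw [Cn_apply, steps, if_pos hk, real_inner_smul_left, smul_smul]; congr 2; ring

/-- The filter input producing the prefix sums with coefficients `a`. -/
noncomputable def inp (n : ℕ) (v : ℕ → EuclideanSpace ℝ (Fin d)) (σ : ℝ) (a : ℕ → ℝ) (k : ℕ) :
    ℝ :=
  (a k + ⟪v k, ∑ i ∈ range k, a i • v i⟫ / 10 ^ 6) / (σ * bet n v k)

lemma inp_lin (σ : ℝ) (a : ℕ → ℝ) {k : ℕ} (hk : k < n) :
    ∑ t ∈ range n, a t * inp n v σ (Pi.single t 1) k = inp n v σ a k := by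
  unfold inp
  simp only [← mul_div_assoc, mul_add, ← sum_div, sum_add_distrib]
  congr 2
  · rw [sum_eq_single k] <;> simp +contextual [hk, eq_comm]
  · congr 1
    simp only [← real_inner_smul_right, ← inner_sum, smul_sum, smul_smul]
    rw [sum_comm]
    congr 1
    refine sum_congr rfl fun i hi => ?_
    have : i < n := (mem_range.1 hi).trans hk
    rw [sum_eq_single i] <;> simp +contextual [this, eq_comm]

lemma prefix_eq (hv : ∀ i, ‖v i‖ ≤ 1) {σ : ℝ} (hσ : 0 < σ) (a ξ : ℕ → ℝ) {τ : ℕ} (hτ : τ ≤ n)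
    (hξ : ∀ k < τ, ξ k = inp n v σ a k) :
    ∑ i ∈ range τ, a i • v i = σ • Yst (steps n v) ξ τ := by
  induction τ with
  | zero => simp [Yst]
  | succ τ ih =>
    have hb : 0 < bet n v τ := lt_of_lt_of_le (by norm_num) (bet_ge hv τ)
    rw [Yst_succ, smul_add, ← map_smul, ← ih (by omega) fun k hk => hξ k (by omega),
      sum_range_succ, Cn_steps hτ, ov_steps hτ, hξ τ (by omega), smul_smul, smul_smul, inp,
      sub_add, ← sub_smul, sub_eq_add_neg, ← neg_smul]
    congr 2
    field_simp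
    ring

theorem main : ∃ C : ℝ, 0 ≤ C ∧ ∀ (d n : ℕ) (v : ℕ → EuclideanSpace ℝ (Fin d)),
    (∀ i, ‖v i‖ ≤ 1) → ∃ ε : ℕ → ℝ, (∀ i, ε i = 1 ∨ ε i = -1) ∧
      ∀ τ ≤ n, ‖∑ i ∈ range τ, ε i • v i‖ ^ 2 ≤ C * (553 * d + 92) := by
  obtain ⟨B, hB, H⟩ := signs_checks
  set σ : ℝ := 28800 * 10 ^ 6 * (1 + B) with hσ
  have hσ1 : 1 ≤ σ := by rw [hσ]; nlinarith
  have hσ0 : 0 < σ := by linarith
  refine ⟨σ ^ 2 * 250000, by positivity, fun d n v hv => ?_⟩
  have hp := steps_le (n := n) hv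
  obtain ⟨cs, hadm, hcost, hcs⟩ := filter_checks hp (EuclideanSpace.basisFun (Fin d) ℝ) n (n + d)
    (by omega) steps_kill
  set b : ℕ → Fin n → ℝ := fun t k => inp n v σ (Pi.single t 1) k with hb
  have hlin : ∀ a : ℕ → ℝ, ∑ t ∈ range n, a t • b t = fun k : Fin n => inp n v σ a k := by
    intro a; ext k
    simp only [Finset.sum_apply, Pi.smul_apply, smul_eq_mul, hb]
    exact inp_lin σ a k.2
  obtain ⟨ε, hε, hK⟩ := H n _ cs hadm hcost b (fun t => by
    set γ : ℕ → ℝ := fun k => -(⟪v k, Fl (steps n v) (t + 1) k (v t)⟫ / 10 ^ 6) with hγ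
    set a : ℕ → ℝ := fun i => if i < t then 0 else if i = t then 1 else γ i with ha
    have hbt := bet_ge (n := n) hv t
    refine ⟨γ, 1 / (σ * bet n v t), ?_, ?_⟩
    · have e1 : b t + ∑ i ∈ Ico (t + 1 : ℕ) n, γ i • b i = ∑ i ∈ range n, a i • b i := by
        rw [range_eq_Ico, ← sum_Ico_consecutive _ (Nat.zero_le (t : ℕ)) t.2.le,
          sum_eq_sum_Ico_succ_bot t.2, sum_eq_zero (s := Ico 0 (t : ℕ)), zero_add]
        · congr 1
          · simp [ha]
          · refine sum_congr rfl fun i hi => ?_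
            have := mem_Ico.1 hi
            simp only [ha]
            rw [if_neg (by omega), if_neg (by omega)]
        · intro i hi
          simp [ha, (mem_Ico.1 hi).2]
      have e2 : ∀ k ≤ (t : ℕ), ∑ i ∈ range k, a i • v i = 0 := by
        intro k hk
        refine sum_eq_zero fun i hi => ?_
        have := mem_range.1 hi
        simp only [ha]
        rw [if_pos (by omega), zero_smul]
      have e3 : ∀ k, (t : ℕ) + 1 ≤ k → k ≤ n →
          ∑ i ∈ range k, a i • v i = Fl (steps n v) (t + 1) k (v t) := by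
        intro k hk
        induction k, hk using Nat.le_induction with
        | base => intro _; rw [sum_range_succ, e2 _ le_rfl, Fl_self]; simp [ha]
        | succ k hk ih =>
          intro hkn
          rw [sum_range_succ, ih (by omega), Fl_succ hk, Cn_steps hkn, sub_eq_add_neg, ← neg_smul]
          simp only [ha]
          rw [if_neg (by omega), if_neg (by omega)]
      rw [e1, hlin]
      ext k
      simp only [Pi.smul_apply, smul_eq_mul, inp]
      rcases lt_trichotomy (k : ℕ) t with h | h | h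
      · rw [e2 _ h.le, Pi.single_eq_of_ne (by intro h'; rw [h'] at h; omega)]
        simp [ha, h]
      · have : k = t := Fin.ext h
        subst this
        rw [e2 _ le_rfl]; simp [ha]
      · rw [e3 _ h k.2.le, Pi.single_eq_of_ne (by intro h'; rw [h'] at h; omega)]
        simp only [ha]
        rw [if_neg (by omega), if_neg (by omega)]
        simp [hγ]
    · have h1 := Fl_energy hp (show (t : ℕ) + 1 ≤ n from t.2) (v t)
      have h2 : ∑ i ∈ Ico (t + 1 : ℕ) n, γ i ^ 2 ≤ ∑ i ∈ Ico (t + 1 : ℕ) n,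
          ⟪ov (steps n v i), Fl (steps n v) (t + 1) i (v t)⟫ ^ 2 / 10 ^ 6 := by
        refine sum_le_sum fun i hi => ?_
        rw [ov_steps (mem_Ico.1 hi).2, real_inner_smul_left, mul_pow]
        simp only [hγ]
        have h3 := pow_le_pow_left₀ (by norm_num) (bet_ge (n := n) hv i) 2
        have := mul_le_mul_of_nonneg_right h3
          (sq_nonneg ⟪v i, Fl (steps n v) (t + 1) i (v t)⟫)
        nlinarith
      rw [← sum_div] at h2
      have h4 : ‖v t‖ ^ 2 ≤ 1 := pow_le_one₀ (norm_nonneg _) (hv t)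
      have h5 : B * (1 / (σ * bet n v t)) ^ 2 ≤ 1 / 28800 := by
        have h6 : 1 / (σ * bet n v t) ≤ 1000 / σ := by
          rw [div_le_div_iff₀ (by positivity) hσ0]; nlinarith
        have h7 := pow_le_pow_left₀ (by positivity) h6 2
        refine (mul_le_mul_of_nonneg_left h7 hB).trans ?_
        rw [div_pow, ← mul_div_assoc, div_le_div_iff₀ (by positivity) (by norm_num)]
        have : 28800 * 10 ^ 6 * B ≤ σ := by rw [hσ]; nlinarith
        nlinarith
      nlinarith [sq_nonneg ‖Fl (steps n v) (t + 1) n (v t)‖])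
  refine ⟨ε, hε, fun τ hτ => ?_⟩
  have h1 := hcs _ hK τ hτ
  rw [prefix_eq hv hσ0 ε (extv 0 τ (∑ i ∈ range n, ε i • b i)) hτ, norm_smul, mul_pow,
    Real.norm_eq_abs, sq_abs, mul_assoc]
  · simp only [Fintype.card_fin] at h1
    gcongr
  · intro k hk
    rw [extv, dif_pos ⟨by omega, by omega, hk⟩, hlin]

end Crest.Agent.Pre
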