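import Crest.Agent.Pre.Tent

/-!
# One healing / splitting step for a single amplitude
-/

set_option autoImplicit false

open MeasureTheory
open scoped ENNReal

namespace Crest.Agent.Pre

variable {n : ℕ}

/-- The affinity of an amplitude with its translate. -/
noncomputable def aff1 (f : (Fin n → ℝ) → ℝ≥0∞) (u : Fin n → ℝ) : ℝ≥0∞ :=
  ∫⁻ x, f x * f (x + u)

/-- Dilation of a set by a segment. -/
def dil (K : Set (Fin n → ℝ)) (v : Fin n → ℝ) (ρ : ℝ) : Set (Fin n → ℝ) :=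
  {x | ∃ a : ℝ, |a| ≤ ρ ∧ x - a • v ∈ K}

/-- Erosion of a set by a segment. -/
def ero (K : Set (Fin n → ℝ)) (v : Fin n → ℝ) (ρ : ℝ) : Set (Fin n → ℝ) :=
  {x | ∀ a : ℝ, |a| ≤ ρ → x + a • v ∈ K}

lemma dil_conv {K : Set (Fin n → ℝ)} (hK : Convex ℝ K) (v : Fin n → ℝ) (ρ : ℝ) :
    Convex ℝ (dil K v ρ) := by
  rintro x ⟨a, ha, hx⟩ y ⟨b, hb, hy⟩ s t hs ht hst
  refine ⟨s * a + t * b, ?_, ?_⟩
  · calc |s * a + t * b| ≤ |s * a| + |t * b| := abs_add_le _ _
      _ = s * |a| + t * |b| := by rw [abs_mul, abs_mul, abs_of_nonneg hs, abs_of_nonneg ht]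
      _ ≤ s * ρ + t * ρ := by gcongr
      _ = ρ := by rw [← add_mul, hst, one_mul]
  · have := hK hx hy hs ht hst
    convert this using 1
    ext i; simp; ring

lemma dil_symm {K : Set (Fin n → ℝ)} (hK : ∀ x ∈ K, -x ∈ K) (v : Fin n → ℝ) (ρ : ℝ) :
    ∀ x ∈ dil K v ρ, -x ∈ dil K v ρ := by
  rintro x ⟨a, ha, hx⟩
  refine ⟨-a, by simpa using ha, ?_⟩
  convert hK _ hx using 1
  ext i; simp; ring

lemma ero_conv {K : Set (Fin n → ℝ)} (hK : Convex ℝ K) (v : Fin n → ℝ) (ρ : ℝ) :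
    Convex ℝ (ero K v ρ) := by
  intro x hx y hy s t hs ht hst a ha
  have := hK (hx a ha) (hy a ha) hs ht hst
  convert this using 1
  ext i; simp
  have : t = 1 - s := by linarith
  subst this; ring

lemma ero_symm {K : Set (Fin n → ℝ)} (hK : ∀ x ∈ K, -x ∈ K) (v : Fin n → ℝ) (ρ : ℝ) :
    ∀ x ∈ ero K v ρ, -x ∈ ero K v ρ := by
  intro x hx a ha
  convert hK _ (hx (-a) (by simpa using ha)) using 1
  ext i; simp; ring

lemma mem_ero {K : Set (Fin n → ℝ)} (hK : Convex ℝ K) (v x : Fin n → ℝ)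
    (h1 : x + (6 : ℝ) • v ∈ K) (h2 : x - (6 : ℝ) • v ∈ K) : x ∈ ero K v 6 := by
  intro a ha
  obtain ⟨ha1, ha2⟩ := abs_le.1 ha
  have := hK h1 h2 (show 0 ≤ (6 + a) / 12 by linarith) (show 0 ≤ (6 - a) / 12 by linarith)
    (by ring)
  convert this using 1
  ext i; simp; ring

/-- The smoothed amplitude. -/
noncomputable def smo (r : ℝ → ℝ≥0∞) (f : (Fin n → ℝ) → ℝ≥0∞) (v x : Fin n → ℝ) : ℝ≥0∞ :=
  (2⁻¹ * ∫⁻ ξ, (f (x - ξ • v) * r ξ) ^ 2) ^ (1 / 2 : ℝ)

section smo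
variable {r : ℝ → ℝ≥0∞} {f : (Fin n → ℝ) → ℝ≥0∞} (hr : Measurable r) (hf : Measurable f)
  (v : Fin n → ℝ)
include hr hf

lemma smo_joint : Measurable fun p : (Fin n → ℝ) × ℝ => (f (p.1 - p.2 • v) * r p.2) ^ 2 := by
  have h1 : Measurable fun p : (Fin n → ℝ) × ℝ => f (p.1 - p.2 • v) := hf.comp (by fun_prop)
  have h2 : Measurable fun p : (Fin n → ℝ) × ℝ => r p.2 := hr.comp measurable_snd
  exact (h1.mul h2).pow_const 2

lemma smo_meas : Measurable (smo r f v) := by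
  unfold smo
  exact (((smo_joint hr hf v).lintegral_prod_right').const_mul _).pow_const _

lemma smo_mass (h1 : ∫⁻ ξ, r ξ ^ 2 = 1) :
    ∫⁻ x, smo r f v x ^ 2 = 2⁻¹ * ∫⁻ x, f x ^ 2 := by
  have e : ∀ x, smo r f v x ^ 2 = 2⁻¹ * ∫⁻ ξ, (f (x - ξ • v) * r ξ) ^ 2 := by
    intro x
    unfold smo
    rw [← ENNReal.rpow_two, ← ENNReal.rpow_mul]; norm_num
  simp only [e]
  rw [lintegral_const_mul _ (smo_joint hr hf v).lintegral_prod_right',
    lintegral_lintegral_swap (smo_joint hr hf v).aemeasurable]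
  congr 1
  have : ∀ ξ : ℝ, ∫⁻ x, (f (x - ξ • v) * r ξ) ^ 2 = (∫⁻ x, f x ^ 2) * r ξ ^ 2 := by
    intro ξ
    simp only [mul_pow]
    have hm : Measurable fun x => f (x - ξ • v) ^ 2 :=
      (hf.comp (measurable_sub_const _)).pow_const 2
    rw [lintegral_mul_const _ hm, lintegral_sub_right_eq_self (fun x => f x ^ 2)]
  simp only [this]
  rw [lintegral_const_mul _ (hr.pow_const 2), h1, mul_one]

lemma smo_aff (u : Fin n → ℝ) (h : ℝ) :
    2⁻¹ * (aff1 f (u + h • v) * ∫⁻ ξ, r ξ * r (ξ - h)) ≤ aff1 (smo r f v) u := by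
  have hj : Measurable fun p : (Fin n → ℝ) × ℝ =>
      (f (p.1 - p.2 • v) * f (p.1 - p.2 • v + (u + h • v))) * (r p.2 * r (p.2 - h)) := by
    have h1 : Measurable fun p : (Fin n → ℝ) × ℝ => f (p.1 - p.2 • v) := hf.comp (by fun_prop)
    have h1' : Measurable fun p : (Fin n → ℝ) × ℝ => f (p.1 - p.2 • v + (u + h • v)) :=
      hf.comp (by fun_prop)
    have h2 : Measurable fun p : (Fin n → ℝ) × ℝ => r p.2 := hr.comp measurable_snd
    have h2' : Measurable fun p : (Fin n → ℝ) × ℝ => r (p.2 - h) := hr.comp (by fun_prop)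
    exact (h1.mul h1').mul (h2.mul h2')
  have e1 : aff1 f (u + h • v) * ∫⁻ ξ, r ξ * r (ξ - h) = ∫⁻ x, ∫⁻ ξ,
      (f (x - ξ • v) * f (x - ξ • v + (u + h • v))) * (r ξ * r (ξ - h)) := by
    rw [lintegral_lintegral_swap hj.aemeasurable]
    have hrr : Measurable fun ξ => r ξ * r (ξ - h) := hr.mul (hr.comp (measurable_sub_const h))
    rw [← lintegral_const_mul _ hrr]
    congr 1; ext ξ
    have hm : Measurable fun x => f (x - ξ • v) * f (x - ξ • v + (u + h • v)) :=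
      (hf.comp (by fun_prop)).mul (hf.comp (by fun_prop))
    rw [lintegral_mul_const _ hm,
      lintegral_sub_right_eq_self (fun x => f x * f (x + (u + h • v)))]
    rfl
  rw [e1, ← lintegral_const_mul _ hj.lintegral_prod_right']
  refine lintegral_mono fun x => ?_
  have ha : Measurable fun ξ : ℝ => f (x - ξ • v) * r ξ := (hf.comp (by fun_prop)).mul hr
  have hb : Measurable fun ξ : ℝ => f (x + u - (ξ - h) • v) * r (ξ - h) :=
    (hf.comp (by fun_prop)).mul (hr.comp (measurable_sub_const h))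
  have H := ENNReal.lintegral_mul_le_Lp_mul_Lq volume Real.HolderConjugate.two_two
    ha.aemeasurable hb.aemeasurable
  simp only [ENNReal.rpow_two, Pi.mul_apply] at H
  rw [lintegral_sub_right_eq_self (fun ξ => (f (x + u - ξ • v) * r ξ) ^ 2) h] at H
  have e2 : ∀ ξ : ℝ, (f (x - ξ • v) * f (x - ξ • v + (u + h • v))) * (r ξ * r (ξ - h)) =
      f (x - ξ • v) * r ξ * (f (x + u - (ξ - h) • v) * r (ξ - h)) := by
    intro ξ
    have : x - ξ • v + (u + h • v) = x + u - (ξ - h) • v := by ext i; simp; ring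
    rw [this]; ring
  simp only [e2]
  unfold smo
  rw [ENNReal.mul_rpow_of_nonneg _ _ (by norm_num), ENNReal.mul_rpow_of_nonneg _ _ (by norm_num)]
  have e3 : (2⁻¹ : ℝ≥0∞) ^ (1 / 2 : ℝ) * 2⁻¹ ^ (1 / 2 : ℝ) = 2⁻¹ := by
    rw [← ENNReal.rpow_add _ _ (by simp) (by simp)]; norm_num
  calc _ ≤ 2⁻¹ * ((∫⁻ ξ, (f (x - ξ • v) * r ξ) ^ 2) ^ (1 / 2 : ℝ) *
      (∫⁻ ξ, (f (x + u - ξ • v) * r ξ) ^ 2) ^ (1 / 2 : ℝ)) := by gcongr
    _ = _ := by rw [mul_mul_mul_comm, e3]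

end smo

lemma smo_supp {r : ℝ → ℝ≥0∞} {f : (Fin n → ℝ) → ℝ≥0∞} {K : Set (Fin n → ℝ)}
    (hr : ∀ ξ, r ξ ≠ 0 → |ξ| ≤ 1) (hf : ∀ x, f x ≠ 0 → x ∈ K) (v x : Fin n → ℝ)
    (h : smo r f v x ≠ 0) : x ∈ dil K v 1 := by
  by_contra hc
  apply h
  have : ∀ ξ : ℝ, (f (x - ξ • v) * r ξ) ^ 2 = 0 := by
    intro ξ
    by_contra h0
    have h1 : f (x - ξ • v) * r ξ ≠ 0 := fun h => h0 (by simp [h])
    exact hc ⟨ξ, hr ξ (right_ne_zero_of_mul h1), hf _ (left_ne_zero_of_mul h1)⟩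
  simp [smo, this]

/-- The upper split amplitude. -/
noncomputable def sup1 (f : (Fin n → ℝ) → ℝ≥0∞) (v x : Fin n → ℝ) : ℝ≥0∞ :=
  2⁻¹ * max (f (x + (6 : ℝ) • v)) (f (x - (6 : ℝ) • v))

/-- The lower split amplitude. -/
noncomputable def inf1 (f : (Fin n → ℝ) → ℝ≥0∞) (v x : Fin n → ℝ) : ℝ≥0∞ :=
  2⁻¹ * min (f (x + (6 : ℝ) • v)) (f (x - (6 : ℝ) • v))

lemma rearr (a b c d : ℝ≥0∞) : a * c + b * d ≤ max a b * max c d + min a b * min c d := by
  have key : ∀ a b c d : ℝ≥0∞, a ≤ b → d ≤ c → a * c + b * d ≤ b * c + a * d := by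
    intro a b c d hab hdc
    obtain ⟨s, rfl⟩ := exists_add_of_le hab
    obtain ⟨t, rfl⟩ := exists_add_of_le hdc
    calc a * (d + t) + (a + s) * d ≤ a * (d + t) + (a + s) * d + s * t := le_self_add
      _ = _ := by ring
  rcases le_total a b with h | h <;> rcases le_total c d with h' | h'
  · rw [max_eq_right h, max_eq_right h', min_eq_left h, min_eq_left h', add_comm]
  · rw [max_eq_right h, max_eq_left h', min_eq_left h, min_eq_right h']
    exact key _ _ _ _ h h'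
  · rw [max_eq_left h, max_eq_right h', min_eq_right h, min_eq_left h', add_comm]
    exact key _ _ _ _ h h'
  · rw [max_eq_left h, max_eq_left h', min_eq_right h, min_eq_right h']

lemma amgm (a b : ℝ≥0∞) : 40 * (a * b) ≤ 16 * a ^ 2 + 25 * b ^ 2 := by
  by_cases ha : a = ⊤
  · simp [ha]
  by_cases hb : b = ⊤
  · simp [hb]
  lift a to NNReal using ha
  lift b to NNReal using hb
  have : (40 * (a * b) : NNReal) ≤ 16 * a ^ 2 + 25 * b ^ 2 := by
    rw [← NNReal.coe_le_coe]; push_cast; nlinarith [sq_nonneg (4 * (a : ℝ) - 5 * b)]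
  exact_mod_cast this

lemma half_sq : (2⁻¹ : ℝ≥0∞) * 2⁻¹ * 2 = 2⁻¹ := by
  rw [mul_assoc, ENNReal.inv_mul_cancel (by simp) (by simp), mul_one]

section split
variable {f : (Fin n → ℝ) → ℝ≥0∞} (hf : Measurable f) (v : Fin n → ℝ)
include hf

lemma sup1_meas : Measurable (sup1 f v) :=
  ((hf.comp (measurable_add_const _)).max (hf.comp (measurable_sub_const _))).const_mul _

lemma inf1_meas : Measurable (inf1 f v) :=
  ((hf.comp (measurable_add_const _)).min (hf.comp (measurable_sub_const _))).const_mul _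

lemma split_mass : (∫⁻ x, sup1 f v x ^ 2) + ∫⁻ x, inf1 f v x ^ 2 = 2⁻¹ * ∫⁻ x, f x ^ 2 := by
  rw [← lintegral_add_left ((sup1_meas hf v).pow_const 2)]
  have e : ∀ x, sup1 f v x ^ 2 + inf1 f v x ^ 2 =
      (2⁻¹ * 2⁻¹) * (f (x + (6 : ℝ) • v) ^ 2 + f (x - (6 : ℝ) • v) ^ 2) := by
    intro x
    unfold sup1 inf1
    rcases le_total (f (x + (6 : ℝ) • v)) (f (x - (6 : ℝ) • v)) with h | h
    · rw [max_eq_right h, min_eq_left h]; ring
    · rw [max_eq_left h, min_eq_right h]; ring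
  simp only [e]
  have h1 : Measurable fun x => f (x + (6 : ℝ) • v) ^ 2 :=
    (hf.comp (measurable_add_const _)).pow_const 2
  have h2 : Measurable fun x => f (x - (6 : ℝ) • v) ^ 2 :=
    (hf.comp (measurable_sub_const _)).pow_const 2
  have h3 : Measurable fun x => f (x + (6 : ℝ) • v) ^ 2 + f (x - (6 : ℝ) • v) ^ 2 := h1.add h2
  rw [lintegral_const_mul _ h3, lintegral_add_left h1,
    lintegral_add_right_eq_self (fun x => f x ^ 2), lintegral_sub_right_eq_self (fun x => f x ^ 2),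
    ← two_mul, ← mul_assoc, half_sq]

lemma split_aff (u : Fin n → ℝ) :
    2⁻¹ * aff1 f u ≤ aff1 (sup1 f v) u + aff1 (inf1 f v) u := by
  unfold aff1
  have hs : Measurable fun x => sup1 f v x * sup1 f v (x + u) :=
    (sup1_meas hf v).mul ((sup1_meas hf v).comp (measurable_add_const _))
  rw [← lintegral_add_left hs]
  have h1 : Measurable fun x => f (x + (6 : ℝ) • v) * f (x + (6 : ℝ) • v + u) :=
    (hf.comp (by fun_prop)).mul (hf.comp (by fun_prop))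
  have h2 : Measurable fun x => f (x - (6 : ℝ) • v) * f (x - (6 : ℝ) • v + u) :=
    (hf.comp (by fun_prop)).mul (hf.comp (by fun_prop))
  have h3 : Measurable fun x => f (x + (6 : ℝ) • v) * f (x + (6 : ℝ) • v + u) +
      f (x - (6 : ℝ) • v) * f (x - (6 : ℝ) • v + u) := h1.add h2
  have e : 2⁻¹ * ∫⁻ x, f x * f (x + u) = ∫⁻ x, (2⁻¹ * 2⁻¹) *
      (f (x + (6 : ℝ) • v) * f (x + (6 : ℝ) • v + u) +
      f (x - (6 : ℝ) • v) * f (x - (6 : ℝ) • v + u)) := by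
    rw [lintegral_const_mul _ h3, lintegral_add_left h1,
      lintegral_add_right_eq_self (fun x => f x * f (x + u)),
      lintegral_sub_right_eq_self (fun x => f x * f (x + u)), ← two_mul, ← mul_assoc, half_sq]
  rw [e]
  refine lintegral_mono fun x => ?_
  have e1 : x + (6 : ℝ) • v + u = x + u + (6 : ℝ) • v := by abel
  have e2 : x - (6 : ℝ) • v + u = x + u - (6 : ℝ) • v := by abel
  rw [e1, e2]
  unfold sup1 inf1
  calc _ ≤ (2⁻¹ * 2⁻¹) * (max (f (x + (6 : ℝ) • v)) (f (x - (6 : ℝ) • v)) *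
        max (f (x + u + (6 : ℝ) • v)) (f (x + u - (6 : ℝ) • v)) +
        min (f (x + (6 : ℝ) • v)) (f (x - (6 : ℝ) • v)) *
        min (f (x + u + (6 : ℝ) • v)) (f (x + u - (6 : ℝ) • v))) :=
        mul_le_mul_right (rearr _ _ _ _) _
    _ = _ := by ring

lemma split_low : 10 * aff1 f ((12 : ℝ) • v) ≤
    16 * (∫⁻ x, sup1 f v x ^ 2) + 25 * ∫⁻ x, inf1 f v x ^ 2 := by
  unfold aff1
  have h1 : Measurable fun x => sup1 f v x ^ 2 := (sup1_meas hf v).pow_const 2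
  have h2 : Measurable fun x => inf1 f v x ^ 2 := (inf1_meas hf v).pow_const 2
  have h3 : Measurable fun x => f (x - (6 : ℝ) • v) * f (x - (6 : ℝ) • v + (12 : ℝ) • v) :=
    (hf.comp (by fun_prop)).mul (hf.comp (by fun_prop))
  rw [← lintegral_const_mul _ h1, ← lintegral_const_mul _ h2,
    ← lintegral_add_left (h1.const_mul _),
    ← lintegral_sub_right_eq_self (fun x => f x * f (x + (12 : ℝ) • v)) ((6 : ℝ) • v),
    ← lintegral_const_mul _ h3]
  refine lintegral_mono fun x => ?_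
  refine le_trans (le_of_eq ?_) (amgm _ _)
  have e1 : x - (6 : ℝ) • v + (12 : ℝ) • v = x + (6 : ℝ) • v := by ext i; simp; ring
  rw [e1]
  unfold sup1 inf1
  rw [mul_mul_mul_comm, max_mul_min, mul_comm (f _), show (40 : ℝ≥0∞) = 10 * 2 * 2 by norm_num]
  have := ENNReal.mul_inv_cancel (a := 2) (by simp) (by simp)
  calc _ = 10 * (2 * 2⁻¹) * (2 * 2⁻¹) * (f (x + (6 : ℝ) • v) * f (x - (6 : ℝ) • v)) := by
        rw [this]; simp
    _ = _ := by ring

end split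

lemma sup1_supp {f : (Fin n → ℝ) → ℝ≥0∞} {K : Set (Fin n → ℝ)}
    (hf : ∀ x, f x ≠ 0 → x ∈ K) (v x : Fin n → ℝ) (h : sup1 f v x ≠ 0) : x ∈ dil K v 6 := by
  by_cases h1 : f (x + (6 : ℝ) • v) = 0
  · by_cases h2 : f (x - (6 : ℝ) • v) = 0
    · exact absurd (by simp [sup1, h1, h2]) h
    · exact ⟨6, by norm_num, hf _ h2⟩
  · exact ⟨-6, by norm_num, by simpa using hf _ h1⟩

lemma inf1_supp {f : (Fin n → ℝ) → ℝ≥0∞} {K : Set (Fin n → ℝ)} (hK : Convex ℝ K)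
    (hf : ∀ x, f x ≠ 0 → x ∈ K) (v x : Fin n → ℝ) (h : inf1 f v x ≠ 0) : x ∈ ero K v 6 := by
  refine mem_ero hK v x (hf _ fun h1 => h ?_) (hf _ fun h1 => h ?_) <;> simp [inf1, h1]

end Crest.Agent.Pre
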