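import Mathlib

/-!
# A compactly supported amplitude on the line with quadratic affinity defect
-/

set_option autoImplicit false

open MeasureTheory
open scoped ENNReal

namespace Crest.Agent.Pre

/-- The tent function. -/
noncomputable def tent (ξ : ℝ) : ℝ := max 0 (1 - |ξ|)

lemma tent_nonneg (ξ : ℝ) : 0 ≤ tent ξ := le_max_left _ _

lemma tent_meas : Measurable fun ξ => ENNReal.ofReal (tent ξ) := by
  unfold tent; fun_prop

lemma tent_lip (ξ h : ℝ) : |tent ξ - tent (ξ - h)| ≤ |h| := by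
  unfold tent
  refine (abs_max_sub_max_le_max _ _ _ _).trans (max_le (by simp) ?_)
  have := abs_abs_sub_abs_le_abs_sub (ξ - h) ξ
  have e : (1 - |ξ|) - (1 - |ξ - h|) = |ξ - h| - |ξ| := by ring
  rw [e]
  simpa using this

lemma tent_eq_zero {ξ : ℝ} (h : 1 ≤ |ξ|) : tent ξ = 0 := max_eq_left (by linarith)

theorem exists_amp : ∃ r : ℝ → ℝ≥0∞, Measurable r ∧ (∀ ξ, r ξ ≠ 0 → |ξ| ≤ 1) ∧
    ∫⁻ ξ, r ξ ^ 2 = 1 ∧ ∀ h : ℝ, ENNReal.ofReal (1 - 8 * h ^ 2) ≤ ∫⁻ ξ, r ξ * r (ξ - h) := by
  set ρ : ℝ → ℝ≥0∞ := fun ξ => ENNReal.ofReal (tent ξ) with hρ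
  have hm : Measurable ρ := tent_meas
  set Z := ∫⁻ ξ, ρ ξ ^ 2 with hZ
  have hZ1 : ENNReal.ofReal (1 / 4) ≤ Z := by
    have : ∫⁻ ξ, (Set.Icc (-(1 / 2) : ℝ) (1 / 2)).indicator (fun _ => ENNReal.ofReal (1 / 4)) ξ
        ≤ Z := by
      refine lintegral_mono fun ξ => ?_
      by_cases h : ξ ∈ Set.Icc (-(1 / 2) : ℝ) (1 / 2)
      · rw [Set.indicator_of_mem h]
        simp only [hρ]
        rw [← ENNReal.ofReal_pow (tent_nonneg _)]
        refine ENNReal.ofReal_le_ofReal ?_
        have h1 : |ξ| ≤ 1 / 2 := abs_le.2 h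
        have : 1 / 2 ≤ tent ξ := le_max_of_le_right (by linarith)
        nlinarith
      · rw [Set.indicator_of_notMem h]; exact zero_le
    rw [lintegral_indicator measurableSet_Icc, setLIntegral_const, Real.volume_Icc] at this
    norm_num at this ⊢
    exact this
  have hZ2 : Z ≠ ⊤ := by
    have : Z ≤ ∫⁻ ξ, (Set.Icc (-1 : ℝ) 1).indicator (fun _ => 1) ξ := by
      refine lintegral_mono fun ξ => ?_
      by_cases h : ξ ∈ Set.Icc (-1 : ℝ) 1
      · rw [Set.indicator_of_mem h]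
        refine pow_le_one₀ zero_le ?_
        simp only [hρ]
        rw [ENNReal.ofReal_le_one]
        exact max_le zero_le_one (by linarith [abs_nonneg ξ])
      · have : 1 ≤ |ξ| := by
          by_contra hc; exact h (abs_le.1 (not_le.1 hc).le)
        simp [hρ, tent_eq_zero this]
    rw [lintegral_indicator measurableSet_Icc, setLIntegral_const, Real.volume_Icc] at this
    exact ne_top_of_le_ne_top (by simp) this
  have hZ0 : Z ≠ 0 := by
    intro h; rw [h] at hZ1; simp at hZ1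
  set c : ℝ≥0∞ := Z⁻¹ ^ (1 / 2 : ℝ) with hc
  have hcc : c * c = Z⁻¹ := by
    rw [hc, ← ENNReal.rpow_add _ _ (by simpa using hZ2) (by simpa using hZ0)]; norm_num
  refine ⟨fun ξ => c * ρ ξ, hm.const_mul c, fun ξ h => ?_, ?_, fun h => ?_⟩
  · by_contra hcon
    apply h
    simp [hρ, tent_eq_zero (not_le.1 hcon).le]
  · simp only [mul_pow]
    rw [lintegral_const_mul _ (hm.pow_const 2), sq, hcc, ENNReal.inv_mul_cancel hZ0 hZ2]
  · by_cases hh : 1 ≤ |h|
    · rw [ENNReal.ofReal_of_nonpos]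
      · exact zero_le
      · have := sq_abs h; nlinarith
    push Not at hh
    have hm' : Measurable fun ξ => ρ (ξ - h) := hm.comp (measurable_sub_const h)
    have hmm : Measurable fun ξ => ρ ξ * ρ (ξ - h) := hm.mul hm'
    have e : ∀ ξ, c * ρ ξ * (c * ρ (ξ - h)) = Z⁻¹ * (ρ ξ * ρ (ξ - h)) := by
      intro ξ; rw [← hcc]; ring
    simp only [e]
    rw [lintegral_const_mul _ hmm]
    set A := ∫⁻ ξ, ρ ξ * ρ (ξ - h) with hA
    have key : Z + Z ≤ 2 * A + ENNReal.ofReal (h ^ 2) * 4 := by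
      have h1 : Z + Z = ∫⁻ ξ, (ρ ξ ^ 2 + ρ (ξ - h) ^ 2) := by
        rw [lintegral_add_left (hm.pow_const 2),
          lintegral_sub_right_eq_self (fun ξ => ρ ξ ^ 2) h]
      have h2 : 2 * A + ENNReal.ofReal (h ^ 2) * 4 = ∫⁻ ξ, (2 * (ρ ξ * ρ (ξ - h)) +
          (Set.Icc (-2 : ℝ) 2).indicator (fun _ => ENNReal.ofReal (h ^ 2)) ξ) := by
        rw [lintegral_add_left (hmm.const_mul 2), lintegral_const_mul _ hmm,
          lintegral_indicator measurableSet_Icc, setLIntegral_const, Real.volume_Icc]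
        norm_num
        rfl
      rw [h1, h2]
      refine lintegral_mono fun ξ => ?_
      by_cases hξ : ξ ∈ Set.Icc (-2 : ℝ) 2
      · rw [Set.indicator_of_mem hξ]
        simp only [hρ]
        have a := tent_nonneg ξ
        have b := tent_nonneg (ξ - h)
        rw [← ENNReal.ofReal_pow a, ← ENNReal.ofReal_pow b, ← ENNReal.ofReal_mul a,
          ← ENNReal.ofReal_add (by positivity) (by positivity),
          show (2 : ℝ≥0∞) = ENNReal.ofReal 2 by simp, ← ENNReal.ofReal_mul (by norm_num),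
          ← ENNReal.ofReal_add (by positivity) (by positivity)]
        refine ENNReal.ofReal_le_ofReal ?_
        have := sq_le_sq.2 (show |tent ξ - tent (ξ - h)| ≤ |h| from tent_lip ξ h)
        nlinarith
      · have h2 : 2 < |ξ| := by
          by_contra hc; exact hξ (abs_le.1 (not_lt.1 hc))
        have h3 : 1 ≤ |ξ - h| := by
          have := abs_sub_abs_le_abs_sub ξ h; linarith
        simp [hρ, tent_eq_zero h3, tent_eq_zero (show 1 ≤ |ξ| by linarith)]
    by_cases hA' : A = ⊤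
    · rw [hA', ENNReal.mul_top (by simpa using hZ2)]; exact le_top
    have hz : 1 / 4 ≤ Z.toReal := (ENNReal.ofReal_le_iff_le_toReal hZ2).1 hZ1
    have hk := ENNReal.toReal_mono (by finiteness) key
    rw [ENNReal.toReal_add hZ2 hZ2, ENNReal.toReal_add (by finiteness) (by finiteness)] at hk
    simp only [ENNReal.toReal_mul, ENNReal.toReal_ofNat, ENNReal.toReal_ofReal (sq_nonneg h)] at hk
    rw [ENNReal.ofReal_le_iff_le_toReal (ENNReal.mul_ne_top (by simpa using hZ0) hA'),
      ENNReal.toReal_mul, ENNReal.toReal_inv, ← div_eq_inv_mul, le_div_iff₀ (by linarith)]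
    nlinarith [sq_nonneg h]

end Crest.Agent.Pre
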