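import Mathlib

/-!
# The search tree on death times

A `Mass` records, for times `x ≤ t`, the mass `R x t` alive at time `x` and dying at step `t`.
We build a binary search tree on the steps whose pivots alternate between four rules.
-/

set_option autoImplicit false

open Finset

namespace Crest.Agent.Pre

/-- The ruler sequence (2-adic valuation of `k+1`). -/
def rul (k : ℕ) : ℕ := if k % 2 = 0 then 0 else rul (k / 2) + 1
decreasing_by omega

lemma exists_rul (m : ℕ) : ∀ k, ∃ i, i < 2 ^ (m + 1) ∧ rul (k + i) = m := by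
  induction m with
  | zero =>
    intro k
    refine ⟨k % 2, by omega, ?_⟩
    rw [rul, if_pos (by omega)]
  | succ m ih =>
    intro k
    obtain ⟨i, hi, h⟩ := ih (k / 2)
    refine ⟨2 * (k / 2 + i) + 1 - k, ?_, ?_⟩
    · rw [pow_succ]; omega
    · rw [rul, if_neg (by omega)]
      have : (k + (2 * (k / 2 + i) + 1 - k)) / 2 = k / 2 + i := by omega
      rw [this, h]

lemma exists_sched (c m j : ℕ) (hc : c < 4) :
    ∃ i, i + 1 ≤ 12 * 2 ^ m ∧ (j + i) % 4 = c ∧ rul ((j + i) / 4) = m := by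
  obtain ⟨i, hi, h⟩ := exists_rul m (j / 4 + 1)
  have h1 : 1 ≤ 2 ^ m := Nat.one_le_two_pow
  rw [pow_succ] at hi
  refine ⟨4 * (j / 4 + 1 + i) + c - j, by omega, by omega, ?_⟩
  have : (j + (4 * (j / 4 + 1 + i) + c - j)) / 4 = j / 4 + 1 + i := by omega
  rw [this, h]

/-- Mass alive at time `x` dying at step `t`. -/
structure Mass where
  R : ℕ → ℕ → ℝ
  nonneg : ∀ x t, 0 ≤ R x t
  mono : ∀ x x' t, x ≤ x' → x' ≤ t → R x t ≤ R x' t
  anti : ∀ s s' b, s ≤ s' → s' ≤ b → ∑ t ∈ Ico s' b, R s' t ≤ ∑ t ∈ Ico s b, R s t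
  prod : ∀ s τ x t, s ≤ τ → τ ≤ x → x ≤ t →
    R τ t - R s t ≤ R x t * (∑ t ∈ Ico s x, R s t - ∑ t ∈ Ico τ x, R τ t)

namespace Mass

variable (M : Mass)

/-- Mass alive at `x` dying in `[a,b)`. -/
noncomputable def g (x a b : ℕ) : ℝ := ∑ t ∈ Ico a b, M.R x t

lemma g_nonneg (x a b : ℕ) : 0 ≤ M.g x a b := sum_nonneg fun _ _ => M.nonneg _ _

lemma g_self (x a : ℕ) : M.g x a a = 0 := by simp [g]

lemma g_add (x : ℕ) {a b c : ℕ} (h1 : a ≤ b) (h2 : b ≤ c) :
    M.g x a b + M.g x b c = M.g x a c := sum_Ico_consecutive _ h1 h2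

lemma g_sub (x : ℕ) {a a' b b' : ℕ} (h1 : a ≤ a') (h2 : b' ≤ b) : M.g x a' b' ≤ M.g x a b :=
  sum_le_sum_of_subset_of_nonneg (Ico_subset_Ico h1 h2) fun _ _ _ => M.nonneg _ _

lemma g_mono {x x' a : ℕ} (b : ℕ) (h1 : x ≤ x') (h2 : x' ≤ a) : M.g x a b ≤ M.g x' a b :=
  sum_le_sum fun t ht => M.mono _ _ _ h1 (h2.trans (mem_Ico.1 ht).1)

lemma g_anti {s s' b : ℕ} (h1 : s ≤ s') (h2 : s' ≤ b) : M.g s' s' b ≤ M.g s s b :=
  M.anti _ _ _ h1 h2

lemma g_prod {s τ x c : ℕ} (e : ℕ) (h1 : s ≤ τ) (h2 : τ ≤ x) (h3 : x ≤ c) :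
    M.g τ c e - M.g s c e ≤ M.g x c e * (M.g s s x - M.g τ τ x) := by
  unfold g
  rw [← sum_sub_distrib, sum_mul]
  exact sum_le_sum fun t ht => M.prod _ _ _ _ h1 h2 (h3.trans (mem_Ico.1 ht).1)

lemma exists_median {a b : ℕ} (h : a < b) (y : ℝ) :
    ∃ r, a ≤ r ∧ r < b ∧ ∀ x ≤ a, M.g x a b ≤ y → M.g x a r ≤ y / 2 ∧ M.g x (r + 1) b ≤ y / 2 := by
  classical
  by_cases hx : ∃ x, x ≤ a ∧ M.g x a b ≤ y
  · obtain ⟨x₀, hx₀, hy₀⟩ := hx
    set x₁ := Nat.findGreatest (fun x => M.g x a b ≤ y) a with hx₁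
    have hP : M.g x₁ a b ≤ y := Nat.findGreatest_spec (P := fun x => M.g x a b ≤ y) hx₀ hy₀
    have hle : x₁ ≤ a := Nat.findGreatest_le a
    have hex : ∃ r, a ≤ r ∧ M.g x₁ a b / 2 ≤ M.g x₁ a (r + 1) := by
      refine ⟨b - 1, by omega, ?_⟩
      have : b - 1 + 1 = b := by omega
      rw [this]; linarith [M.g_nonneg x₁ a b]
    set r := Nat.find hex with hr
    have hs := Nat.find_spec hex
    have hrb : r ≤ b - 1 := Nat.find_min' hex ⟨by omega, by
      have : b - 1 + 1 = b := by omega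
      rw [this]; linarith [M.g_nonneg x₁ a b]⟩
    refine ⟨r, hs.1, by omega, fun x hx hy => ?_⟩
    have hxx : x ≤ x₁ := Nat.le_findGreatest hx hy
    have h1 : M.g x₁ a r ≤ y / 2 := by
      rcases eq_or_lt_of_le hs.1 with h0 | h0
      · rw [← hr] at h0; rw [← h0, g_self]; linarith [M.g_nonneg x₁ a b]
      · have := Nat.find_min hex (m := r - 1) (by omega)
        rw [not_and] at this
        have h2 := this (by omega)
        have : r - 1 + 1 = r := by omega
        rw [this] at h2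
        linarith
    have h2 : M.g x₁ (r + 1) b ≤ y / 2 := by
      have := M.g_add x₁ (a := a) (b := r + 1) (c := b) (by omega) (by omega)
      linarith [hs.2]
    exact ⟨(M.g_mono r hxx hle).trans h1, (M.g_mono b hxx (by omega)).trans h2⟩
  · exact ⟨a, le_rfl, h, fun x hx' hy => absurd ⟨x, hx', hy⟩ hx⟩

/-- The properties of a pivot. -/
structure IsPiv (a b j r : ℕ) : Prop where
  le : a ≤ r
  lt : r < b
  L : j % 4 = 0 → (r = a ∨ M.g a a r < M.g a a b - 1 / 3) ∧ M.g a (r + 1) b ≤ 1 / 3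
  R : j % 4 = 1 → M.g a a b - 1 / 3 ≤ M.g r r b ∧
    (r + 1 = b ∨ M.g (r + 1) (r + 1) b < M.g a a b - 1 / 3)
  P : j % 4 = 2 → ∀ x ≤ a, M.g x a b ≤ 2 ^ (rul (j / 4) + 1) →
    M.g x a r ≤ 2 ^ rul (j / 4) ∧ M.g x (r + 1) b ≤ 2 ^ rul (j / 4)
  Q : j % 4 = 3 → ∀ x ≤ a, M.g x a b ≤ (1 / 2) ^ rul (j / 4) →
    M.g x a r ≤ (1 / 2) ^ (rul (j / 4) + 1) ∧ M.g x (r + 1) b ≤ (1 / 2) ^ (rul (j / 4) + 1)

lemma exists_piv {a b : ℕ} (h : a < b) (j : ℕ) : ∃ r, M.IsPiv a b j r := by
  classical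
  have hj : j % 4 = 0 ∨ j % 4 = 1 ∨ j % 4 = 2 ∨ j % 4 = 3 := by omega
  rcases hj with hj | hj | hj | hj
  · have hb : b - 1 + 1 = b := by omega
    have hex : ∃ r, a ≤ r ∧ M.g a a b - 1 / 3 ≤ M.g a a (r + 1) :=
      ⟨b - 1, by omega, by rw [hb]; linarith⟩
    have hs := Nat.find_spec hex
    have hrb : Nat.find hex ≤ b - 1 := Nat.find_min' hex ⟨by omega, by rw [hb]; linarith⟩
    refine ⟨Nat.find hex, hs.1, by omega, fun _ => ⟨?_, ?_⟩, by omega, by omega, by omega⟩
    · rcases eq_or_lt_of_le hs.1 with h0 | h0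
      · exact Or.inl h0.symm
      · right
        have := Nat.find_min hex (m := Nat.find hex - 1) (by omega)
        rw [not_and] at this
        have h2 := this (by omega)
        have : Nat.find hex - 1 + 1 = Nat.find hex := by omega
        rw [this] at h2
        linarith
    · have := M.g_add a (a := a) (b := Nat.find hex + 1) (c := b) (by omega) (by omega)
      linarith [hs.2]
  · set r := Nat.findGreatest (fun r => M.g a a b - 1 / 3 ≤ M.g r r b) (b - 1) with hr
    have ha : M.g a a b - 1 / 3 ≤ M.g a a b := by linarith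
    have hP : M.g a a b - 1 / 3 ≤ M.g r r b :=
      Nat.findGreatest_spec (P := fun r => M.g a a b - 1 / 3 ≤ M.g r r b) (m := a) (by omega) ha
    have hle : r ≤ b - 1 := Nat.findGreatest_le _
    have har : a ≤ r := Nat.le_findGreatest (by omega) ha
    refine ⟨r, har, by omega, by omega, fun _ => ⟨hP, ?_⟩, by omega, by omega⟩
    by_cases h0 : r + 1 = b
    · exact Or.inl h0
    · right
      have := Nat.findGreatest_is_greatest (P := fun r => M.g a a b - 1 / 3 ≤ M.g r r b)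
        (n := b - 1) (k := r + 1) (by omega) (by omega)
      exact not_le.1 this
  · obtain ⟨r, h1, h2, h3⟩ := M.exists_median h (2 ^ (rul (j / 4) + 1))
    refine ⟨r, h1, h2, by omega, by omega, fun _ x hx hy => ?_, by omega⟩
    have := h3 x hx hy
    rw [pow_succ] at this
    constructor <;> linarith [this.1, this.2]
  · obtain ⟨r, h1, h2, h3⟩ := M.exists_median h ((1 / 2) ^ rul (j / 4))
    refine ⟨r, h1, h2, by omega, by omega, by omega, fun _ x hx hy => ?_⟩
    have := h3 x hx hy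
    rw [pow_succ]
    constructor <;> linarith [this.1, this.2]

/-- The pivot of a node. -/
noncomputable def piv (a b j : ℕ) : ℕ :=
  if h : a < b then Classical.choose (M.exists_piv h j) else a

lemma piv_spec {a b : ℕ} (h : a < b) (j : ℕ) : M.IsPiv a b j (M.piv a b j) := by
  rw [piv, dif_pos h]; exact Classical.choose_spec (M.exists_piv h j)

/-- The blocks `[r, b)` of the tree. -/
noncomputable def blocks (a b j : ℕ) : List (ℕ × ℕ) :=
  if h : a < b then
    (M.piv a b j, b) :: (blocks a (M.piv a b j) (j + 1) ++ blocks (M.piv a b j + 1) b (j + 1))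
  else []
termination_by b - a
decreasing_by
  · have := (M.piv_spec h j).lt; have := (M.piv_spec h j).le; omega
  · have := (M.piv_spec h j).lt; have := (M.piv_spec h j).le; omega

lemma blocks_of_lt {a b : ℕ} (h : a < b) (j : ℕ) : M.blocks a b j =
    (M.piv a b j, b) :: (M.blocks a (M.piv a b j) (j + 1) ++
      M.blocks (M.piv a b j + 1) b (j + 1)) := by
  rw [blocks, dif_pos h]

lemma blocks_of_le {a b : ℕ} (h : b ≤ a) (j : ℕ) : M.blocks a b j = [] := by
  rw [blocks, dif_neg (by omega)]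

lemma mem_blocks : ∀ (k a b j : ℕ), b - a ≤ k → ∀ F ∈ M.blocks a b j,
    a ≤ F.1 ∧ F.1 < F.2 ∧ F.2 ≤ b := by
  intro k
  induction k with
  | zero => intro a b j h F hF; rw [blocks_of_le _ (by omega)] at hF; simp at hF
  | succ k ih =>
    intro a b j h F hF
    by_cases hab : a < b
    · have hp := M.piv_spec hab j
      have h1 := hp.le; have h2 := hp.lt
      rw [blocks_of_lt _ hab] at hF
      simp only [List.mem_cons, List.mem_append] at hF
      rcases hF with rfl | hF | hF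
      · exact ⟨h1, h2, le_rfl⟩
      · have := ih _ _ _ (by omega) F hF; omega
      · have := ih _ _ _ (by omega) F hF; omega
    · rw [blocks_of_le _ (by omega)] at hF; simp at hF

end Mass

end Crest.Agent.Pre
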